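import Vale.Agent.P268.T.H500.Loc
import Vale.Agent.P268.T.K373.Def

/-!
# P268, topological half: the windows of the ray function in one variable
-/

set_option linter.unusedSectionVars false

namespace Vale.Agent.P268.T

open Set Filter Topology

/-! ### The triangle wave and the turning function -/

theorem abs_fract_sub_half (x : ℝ) :
    |Int.fract x - 1 / 2| = ‖((x - 1 / 2 : ℝ) : UnitAddCircle)‖ := by
  rw [UnitAddCircle.norm_eq, round_eq]
  congr 1
  have h1 : x - 1 / 2 + 1 / 2 = x := by ring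
  rw [h1, ← Int.self_sub_floor x]
  ring

theorem continuous_tri' : Continuous tri := by
  have h1 : tri = fun w => 1 / 4 - ‖((w + 1 / 4 - 1 / 2 : ℝ) : UnitAddCircle)‖ := by
    funext w
    rw [tri, abs_fract_sub_half]
  rw [h1]
  refine continuous_const.sub (Continuous.norm ?_)
  exact (AddCircle.continuous_mk' 1).comp (by fun_prop)

theorem tri_bound' (w : ℝ) : |tri w| ≤ 1 / 4 := by
  have h1 := Int.fract_nonneg (w + 1 / 4)
  have h2 := Int.fract_lt_one (w + 1 / 4)
  have h3 : |Int.fract (w + 1 / 4) - 1 / 2| ≤ 1 / 2 := abs_le.mpr ⟨by linarith, by linarith⟩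
  have h4 := abs_nonneg (Int.fract (w + 1 / 4) - 1 / 2)
  rw [tri, abs_le]
  constructor <;> linarith

theorem tri_eq {w : ℝ} {k : ℤ} (h : |w - k| ≤ 1 / 4) : tri w = w - k := by
  obtain ⟨h1, h2⟩ := abs_le.mp h
  have h3 : Int.fract (w + 1 / 4) = w + 1 / 4 - k := by
    rw [Int.fract_eq_iff]
    exact ⟨by linarith, by linarith, ⟨k, by ring⟩⟩
  rw [tri, h3, abs_of_nonpos (by linarith)]
  ring

theorem turn_bound' (z : ℂ) : |turn z| ≤ 1 / 4 * |z.re| := by
  rw [turn, abs_mul, mul_comm]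
  exact mul_le_mul_of_nonneg_right (tri_bound' _) (abs_nonneg _)

theorem continuous_turn' : Continuous turn := by
  rw [continuous_iff_continuousAt]
  intro z
  by_cases h : z.re = 0
  · have h0 : turn z = 0 := by rw [turn, h, zero_mul]
    rw [ContinuousAt, h0]
    refine squeeze_zero_norm' (a := fun w : ℂ => 1 / 4 * |w.re|)
      (Eventually.of_forall fun w => ?_) ?_
    · rw [Real.norm_eq_abs]
      exact turn_bound' w
    · have h2 : Tendsto (fun w : ℂ => 1 / 4 * |w.re|) (𝓝 z) (𝓝 (1 / 4 * |z.re|)) :=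
        (continuous_const.mul (continuous_abs.comp Complex.continuous_re)).tendsto _
      rw [h, abs_zero, mul_zero] at h2
      exact h2
  · have h1 : ContinuousAt (fun w : ℂ => w.im / |w.re|) z :=
      Complex.continuous_im.continuousAt.div
        (continuous_abs.comp Complex.continuous_re).continuousAt (abs_ne_zero.mpr h)
    exact Complex.continuous_re.continuousAt.mul (continuous_tri'.continuousAt.comp h1)

theorem turn_smul' {r : ℝ} (hr : 0 ≤ r) (z : ℂ) : turn (r • z) = r * turn z := by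
  rcases hr.eq_or_lt with rfl | hr
  · simp [turn]
  · rw [turn, turn, Complex.smul_re, Complex.smul_im, smul_eq_mul, smul_eq_mul, abs_mul,
      abs_of_pos hr, mul_div_mul_left _ _ hr.ne', mul_assoc]

theorem turn_pos {c s : ℝ} {k : ℕ} (hc : 0 < c) (h : |s - k * c| ≤ c / 4) :
    turn ⟨c, s⟩ = s - k * c := by
  rw [turn]
  show c * tri (s / |c|) = _
  have h1 : |s / c - ((k : ℤ) : ℝ)| ≤ 1 / 4 := by
    have : s / c - ((k : ℤ) : ℝ) = (s - k * c) / c := by
      rw [Int.cast_natCast]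
      field_simp
    rw [this, abs_div, abs_of_pos hc, div_le_iff₀ hc]
    linarith
  rw [abs_of_pos hc, tri_eq h1, Int.cast_natCast]
  field_simp

theorem turn_neg {c s : ℝ} (hc : c < 0) (h : |s| ≤ -c / 4) : turn ⟨c, s⟩ = -s := by
  rw [turn]
  show c * tri (s / |c|) = _
  have hc' : 0 < -c := by linarith
  have h1 : |s / (-c) - ((0 : ℤ) : ℝ)| ≤ 1 / 4 := by
    rw [Int.cast_zero, sub_zero, abs_div, abs_of_pos hc', div_le_iff₀ hc']
    linarith
  rw [abs_of_neg hc, tri_eq h1, Int.cast_zero, sub_zero]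
  have : c ≠ 0 := hc.ne
  field_simp

/-! ### Rays -/

theorem ray_smul' {ε r : ℝ} (hr : 0 ≤ r) (k : ℕ) (z : ℂ) : ray ε k (r • z) = r * ray ε k z := by
  rw [ray, ray, Complex.smul_re, Complex.smul_im, smul_eq_mul, smul_eq_mul, abs_mul,
    abs_of_nonneg hr]
  have h1 : max (r * z.re) 0 = r * max z.re 0 := by
    rw [mul_max_of_nonneg _ _ hr, mul_zero]
  have h2 : r * z.im - k * (r * max z.re 0) = r * (z.im - k * max z.re 0) := by ring
  rw [h1, h2, abs_mul, abs_of_nonneg hr]
  ring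

theorem ray_pos {ε c s : ℝ} (hc : 0 < c) (k : ℕ) :
    ray ε k ⟨c, s⟩ = ε * c - |s - k * c| / 2 := by
  show ε * |c| - |s - k * max c 0| / 2 = _
  rw [abs_of_pos hc, max_eq_left hc.le]

theorem ray_neg {ε c s : ℝ} (hc : c ≤ 0) (k : ℕ) :
    ray ε k ⟨c, s⟩ = ε * -c - |s| / 2 := by
  show ε * |c| - |s - k * max c 0| / 2 = _
  rw [abs_of_nonpos hc, max_eq_right hc, mul_zero, sub_zero]

theorem continuous_ray' (ε : ℝ) (k : ℕ) : Continuous (ray ε k) := by
  unfold ray
  fun_prop

section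

variable {σ : Type} [Fintype σ] [Nonempty σ]

/-- The ray function on the plane. -/
noncomputable def FS1 (ε : ℝ) (K : σ → Fin 1 → ℕ) (z : ℂ) : ℂ := FS ε K fun _ => z

theorem FS1_re (ε : ℝ) (K : σ → Fin 1 → ℕ) (z : ℂ) :
    (FS1 ε K z).re = Finset.univ.sup' Finset.univ_nonempty fun a => ray ε (K a 0) z := by
  show raySup ε K (fun _ => z) = _
  simp only [raySup, Fin.sum_univ_one]

theorem FS1_im (ε : ℝ) (K : σ → Fin 1 → ℕ) (z : ℂ) : (FS1 ε K z).im = turn z := by
  show turnSum (fun _ : Fin 1 => z) = _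
  simp only [turnSum, Fin.sum_univ_one]

theorem FS1_smul (ε : ℝ) (K : σ → Fin 1 → ℕ) {r : ℝ} (hr : 0 ≤ r) (z : ℂ) :
    FS1 ε K (r • z) = r • FS1 ε K z := by
  apply Complex.ext
  · rw [FS1_re, Complex.smul_re, FS1_re, smul_eq_mul]
    simp only [ray_smul' hr]
    apply le_antisymm
    · refine Finset.sup'_le _ _ fun a _ => ?_
      exact mul_le_mul_of_nonneg_left
        (Finset.le_sup' (fun a => ray ε (K a 0) z) (Finset.mem_univ a)) hr
    · obtain ⟨a, _, ha⟩ := Finset.exists_mem_eq_sup' (Finset.univ_nonempty (α := σ))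
        fun a => ray ε (K a 0) z
      rw [ha]
      exact Finset.le_sup' (fun a => r * ray ε (K a 0) z) (Finset.mem_univ a)
  · rw [FS1_im, Complex.smul_im, FS1_im, smul_eq_mul, turn_smul' hr]

theorem continuous_FS1 (ε : ℝ) (K : σ → Fin 1 → ℕ) : Continuous (FS1 ε K) := by
  have h1 : FS1 ε K = fun z => ((Finset.univ.sup' Finset.univ_nonempty
      fun a => ray ε (K a 0) z : ℝ) : ℂ) + ((turn z : ℝ) : ℂ) * Complex.I := by
    funext z
    apply Complex.ext
    · simp [FS1_re]
    · simp [FS1_im]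
  rw [h1]
  have h2 : Continuous fun z : ℂ => Finset.univ.sup' (Finset.univ_nonempty (α := σ))
      fun a => ray ε (K a 0) z :=
    Continuous.finset_sup'_apply _ fun a _ => continuous_ray' ε (K a 0)
  have h3 := continuous_turn'
  fun_prop

/-- The ray function on the circle. -/
noncomputable def gS (ε : ℝ) (K : σ → Fin 1 → ℕ) (θ : ℝ) : ℂ :=
  FS1 ε K ⟨Real.cos θ, Real.sin θ⟩

theorem pol_gS (ε : ℝ) (K : σ → Fin 1 → ℕ) (z : ℂ) : pol (gS ε K) z = FS1 ε K z := by
  rw [pol, gS, ← FS1_smul ε K (norm_nonneg z)]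
  congr 1
  apply Complex.ext
  · rw [Complex.smul_re, smul_eq_mul, Complex.norm_mul_cos_arg]
  · rw [Complex.smul_im, smul_eq_mul, Complex.norm_mul_sin_arg]

theorem gS_per (ε : ℝ) (K : σ → Fin 1 → ℕ) : Function.Periodic (gS ε K) (2 * Real.pi) := by
  intro θ
  rw [gS, gS, Real.cos_add_two_pi, Real.sin_add_two_pi]

theorem gS_cont (ε : ℝ) (K : σ → Fin 1 → ℕ) : Continuous (gS ε K) :=
  (continuous_FS1 ε K).comp (continuous_mk Real.continuous_cos Real.continuous_sin)

/-- The value near the `k`-th ray in the right half plane. -/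
theorem gS_pos {A : ℕ} {K : σ → Fin 1 → ℕ} (hK : ∀ k : ℕ, (∃ a, K a 0 = k) ↔ k + 1 < A)
    {ε θ : ℝ} {k : ℕ} (hk : k + 1 < A) (hc : 0 < Real.cos θ)
    (h : |Real.sin θ - k * Real.cos θ| < Real.cos θ / 4) :
    gS ε K θ = ⟨ε * Real.cos θ - |Real.sin θ - k * Real.cos θ| / 2,
      Real.sin θ - k * Real.cos θ⟩ := by
  apply Complex.ext
  · rw [gS, FS1_re]
    simp only [ray_pos hc]
    apply le_antisymm
    · refine Finset.sup'_le _ _ fun a _ => ?_
      by_cases ha : K a 0 = k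
      · rw [ha]
      · have h1 : (1 : ℝ) ≤ |(k : ℝ) - (K a 0 : ℕ)| := by
          have : (1 : ℤ) ≤ |(k : ℤ) - (K a 0 : ℕ)| := by
            rcases Int.lt_trichotomy (k : ℤ) (K a 0 : ℕ) with h2 | h2 | h2
            · rw [abs_of_neg (by omega)]; omega
            · exact absurd (by exact_mod_cast h2.symm) ha
            · rw [abs_of_pos (by omega)]; omega
          exact_mod_cast this
        have h2 : |(k : ℝ) - (K a 0 : ℕ)| * Real.cos θ ≤
            |Real.sin θ - (K a 0 : ℕ) * Real.cos θ| + |Real.sin θ - k * Real.cos θ| := by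
          have e1 : ((k : ℝ) - (K a 0 : ℕ)) * Real.cos θ =
              (Real.sin θ - (K a 0 : ℕ) * Real.cos θ) - (Real.sin θ - k * Real.cos θ) := by ring
          calc _ = |((k : ℝ) - (K a 0 : ℕ)) * Real.cos θ| := by
                rw [abs_mul, abs_of_pos hc]
            _ ≤ _ := by rw [e1]; exact abs_sub _ _
        have h3 : 1 * Real.cos θ ≤ |(k : ℝ) - (K a 0 : ℕ)| * Real.cos θ :=
          mul_le_mul_of_nonneg_right h1 hc.le
        show ε * Real.cos θ - |Real.sin θ - (K a 0 : ℕ) * Real.cos θ| / 2 ≤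
          ε * Real.cos θ - |Real.sin θ - k * Real.cos θ| / 2
        linarith
    · obtain ⟨a, ha⟩ := (hK k).mpr hk
      have := Finset.le_sup' (fun a => ε * Real.cos θ -
        |Real.sin θ - (K a 0 : ℕ) * Real.cos θ| / 2) (Finset.mem_univ a)
      simp only [ha] at this
      exact this
  · rw [gS, FS1_im, turn_pos hc h.le]

/-- The value near the ray in the left half plane. -/
theorem gS_neg {K : σ → Fin 1 → ℕ} {ε θ : ℝ} (hc : Real.cos θ < 0)
    (h : |Real.sin θ| < -Real.cos θ / 4) :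
    gS ε K θ = ⟨ε * -Real.cos θ - |-Real.sin θ| / 2, -Real.sin θ⟩ := by
  apply Complex.ext
  · rw [gS, FS1_re]
    simp only [ray_neg hc.le]
    rw [Finset.sup'_const, abs_neg]
  · rw [gS, FS1_im, turn_neg hc h.le]

end

/-- Local form of a window bounded by two rays. -/
theorem LocWin.of_abs {f : ℝ → ℂ} {φ θ₀ ε u' v' : ℝ} {u v : ℝ → ℝ}
    (hf : ∀ᶠ θ in 𝓝 θ₀, f θ = ⟨ε * v θ - |u θ| / 2, u θ⟩)
    (hu : HasStrictDerivAt u u' θ₀) (hv : HasStrictDerivAt v v' θ₀) (h' : 2 * ε * |v'| < u')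
    (hε : 0 < ε) (s1 : φ < θ₀ → 0 < u θ₀) (s2 : θ₀ < φ → u θ₀ < 0)
    (s3 : θ₀ = φ → u θ₀ = 0 ∧ 0 < v θ₀) : LocWin f φ θ₀ := by
  have hf0 := hf.self_of_nhds
  have him0 : (f θ₀).im = u θ₀ := by rw [hf0]
  have him : (fun θ => (f θ).im) =ᶠ[𝓝 θ₀] u := by
    filter_upwards [hf] with θ h
    rw [h]
  have hv0 := abs_nonneg v'
  have hεv : 0 ≤ 2 * ε * |v'| := by positivity
  have huc : ContinuousAt u θ₀ := hu.hasDerivAt.continuousAt
  refine LocWin.of_deriv (I' := u') (fun h => by rw [him0]; exact s1 h)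
    (fun h => by rw [him0]; exact s2 h) (fun h => ?_) (hu.congr_of_eventuallyEq him.symm)
    (by linarith) (fun h => ?_) (fun h => ?_) (fun h => ?_)
  · rw [him0]
    refine ⟨(s3 h).1, ?_⟩
    rw [hf0]
    show 0 < ε * v θ₀ - |u θ₀| / 2
    rw [(s3 h).1, abs_zero]
    have := mul_pos hε (s3 h).2
    linarith
  · refine ⟨ε * v' - u' / 2, ?_, ?_⟩
    · have : ε * v' ≤ ε * |v'| := mul_le_mul_of_nonneg_left (le_abs_self _) hε.le
      linarith
    · have h1 : HasStrictDerivAt (fun θ => ε * v θ - u θ / 2) (ε * v' - u' / 2) θ₀ :=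
        (hv.const_mul ε).sub (hu.div_const 2)
      refine h1.congr_of_eventuallyEq ?_
      filter_upwards [hf, huc.eventually (lt_mem_nhds (s1 h))] with θ h2 h3
      rw [h2]
      show _ = ε * v θ - |u θ| / 2
      rw [abs_of_pos h3]
  · refine ⟨ε * v' + u' / 2, ?_, ?_⟩
    · have : -(ε * |v'|) ≤ ε * v' := by
        have := mul_le_mul_of_nonneg_left (neg_abs_le v') hε.le
        linarith
      linarith
    · have h1 : HasStrictDerivAt (fun θ => ε * v θ + u θ / 2) (ε * v' + u' / 2) θ₀ :=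
        (hv.const_mul ε).add (hu.div_const 2)
      refine h1.congr_of_eventuallyEq ?_
      filter_upwards [hf, huc.eventually (gt_mem_nhds (s2 h))] with θ h2 h3
      rw [h2]
      show _ = ε * v θ - |u θ| / 2
      rw [abs_of_neg h3]
      ring
  · obtain ⟨δ₁, hδ₁, k1⟩ := strict_lip hu
    obtain ⟨δ₂, hδ₂, k2⟩ := strict_lip hv
    obtain ⟨δ₃, hδ₃, k3⟩ := Metric.eventually_nhds_iff.mp hf
    refine ⟨ε * (|v'| + 1) + (|u'| + 1) / 2, min (min δ₁ δ₂) δ₃,
      lt_min (lt_min hδ₁ hδ₂) hδ₃, fun x y hx hy hxy => ?_⟩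
    have a1 := k1 x y (hx.trans_le ((min_le_left _ _).trans (min_le_left _ _)))
      (hy.trans_le ((min_le_left _ _).trans (min_le_left _ _))) hxy
    have a2 := k2 x y (hx.trans_le ((min_le_left _ _).trans (min_le_right _ _)))
      (hy.trans_le ((min_le_left _ _).trans (min_le_right _ _))) hxy
    have ex := k3 (y := x) (by rw [Real.dist_eq]; exact hx.trans_le (min_le_right _ _))
    have ey := k3 (y := y) (by rw [Real.dist_eq]; exact hy.trans_le (min_le_right _ _))
    rw [ex, ey]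
    show |ε * v y - |u y| / 2 - (ε * v x - |u x| / 2)| ≤ _
    have e1 : ε * v y - |u y| / 2 - (ε * v x - |u x| / 2) =
        ε * (v y - v x) - (|u y| - |u x|) / 2 := by ring
    rw [e1]
    have b1 : |ε * (v y - v x)| ≤ ε * ((|v'| + 1) * (y - x)) := by
      rw [abs_mul, abs_of_pos hε]
      exact mul_le_mul_of_nonneg_left a2 hε.le
    have b2 : |(|u y| - |u x|) / 2| ≤ ((|u'| + 1) * (y - x)) / 2 := by
      rw [abs_div, abs_of_pos (zero_lt_two' ℝ)]
      exact div_le_div_of_nonneg_right ((abs_abs_sub_abs_le _ _).trans a1) (by norm_num)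
    refine (abs_sub _ _).trans ?_
    linarith

end Vale.Agent.P268.T
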