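import Vale.Agent.P268.T.H500.Inv

/-!
# P268, topological half, route V: the index function of the rays
-/

set_option linter.unusedSectionVars false

namespace Vale.Agent.P268.T

open Set Filter Topology

/-- The index function of the rays: `P1 A (cen A j) = j + 1`. -/
noncomputable def P1 (A : ℕ) (θ : ℝ) : ℝ := A * psiT A θ / (2 * Real.pi) + 1

theorem P1_incBi {A : ℕ} (hA : 2 ≤ A) : ∃ m L : ℝ, IncBi m L (P1 A) := by
  have hA' : (2 : ℤ) ≤ (A : ℤ) := by exact_mod_cast hA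
  have hA0 : (0 : ℝ) < A := by exact_mod_cast (by omega : 0 < A)
  have hp := Real.pi_pos
  obtain ⟨m, L, h⟩ := psiT_incBi hA'
  refine ⟨A / (2 * Real.pi) * m, A / (2 * Real.pi) * L, mul_pos (by positivity) h.1,
    fun x y hxy => ?_⟩
  obtain ⟨h1, h2⟩ := h.2 x y hxy
  have e : P1 A y - P1 A x = A / (2 * Real.pi) * (psiT A y - psiT A x) := by
    rw [P1, P1]; ring
  rw [e, mul_assoc, mul_assoc]
  exact ⟨mul_le_mul_of_nonneg_left h1 (by positivity),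
    mul_le_mul_of_nonneg_left h2 (by positivity)⟩

theorem P1_add {A : ℕ} (hA : 2 ≤ A) (θ : ℝ) : P1 A (θ + 2 * Real.pi) = P1 A θ + A := by
  have hA' : (2 : ℤ) ≤ (A : ℤ) := by exact_mod_cast hA
  have hp := Real.pi_pos
  rw [P1, P1, psiT_per hA']
  field_simp
  ring

theorem P1_cen {A : ℕ} (hA : 2 ≤ A) (j : ℤ) : P1 A (cen A j) = j + 1 := by
  have hA' : (2 : ℤ) ≤ (A : ℤ) := by exact_mod_cast hA
  have hA0 : (A : ℝ) ≠ 0 := by exact_mod_cast (by omega : A ≠ 0)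
  have hp := Real.pi_pos
  rw [P1, psiT_cen hA']
  push_cast
  field_simp

theorem exists_P1 {A : ℕ} (hA : 2 ≤ A) : ∃ P : ℝ → ℝ, (∃ m L : ℝ, IncBi m L P) ∧
    (∀ θ, P (θ + 2 * Real.pi) = P θ + A) ∧ ∀ j : ℤ, P (cen A j) = j + 1 :=
  ⟨P1 A, P1_incBi hA, P1_add hA, P1_cen hA⟩

theorem continuous_P1 {A : ℕ} (hA : 2 ≤ A) : Continuous (P1 A) := by
  obtain ⟨m, L, h⟩ := P1_incBi hA
  exact h.continuous

theorem P1_lip {A : ℕ} (hA : 2 ≤ A) : ∃ L : ℝ, ∀ x y, |P1 A x - P1 A y| ≤ L * |x - y| := by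
  obtain ⟨m, L, h⟩ := P1_incBi hA
  exact ⟨L, fun x y => (h.abs_le x y).2⟩

end Vale.Agent.P268.T
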