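import Vale.Agent.P268.T.H69.End
import Vale.Agent.P268.T.H830.StepD
import Vale.Agent.P268.T.H500.P1

/-! The cut-off functions of the step (D): `η (a+1) (P1 (a+1) (arg z))`. -/

namespace Vale.Agent.P268.T.H500

open Set Filter Topology

theorem isP1_P1 : IsP1 P1 :=
  ⟨fun _ hT => P1_incBi hT, fun _ hT θ => P1_add hT θ, fun _ hT j => P1_cen hT j⟩

/-- A continuous periodic function of the argument is continuous off the origin. -/
theorem continuousAt_per_arg {g : ℝ → ℝ} (hg : Continuous g)
    (per : Function.Periodic g (2 * Real.pi)) {z : ℂ} (hz : z ≠ 0) :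
    ContinuousAt (fun x : ℂ => g (Complex.arg x)) z := by
  have h1 : ContinuousAt (fun x : ℂ => g (Complex.arg z + Complex.arg (x / z))) z :=
    hg.continuousAt.comp (continuousAt_argdiv hz)
  refine h1.congr ?_
  filter_upwards [continuousAt_id.eventually_ne hz] with x hx
  exact (periodic_arg per hz hx).symm

theorem cutOff {P : ℝ → ℝ} {a : ℕ} (ha : 2 ≤ a) (hc : Continuous P)
    (hP : ∀ θ, P (θ + 2 * Real.pi) = P θ + ((a + 1 : ℕ) : ℝ)) {d : ℝ} (h : NearP (a + 1) P d) :
    CutOff d (a - 2) (fun z => eta (a + 1) (P (Complex.arg z))) where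
  cont := fun z hz => by
    refine continuousAt_per_arg (g := fun θ => eta (a + 1) (P θ))
      ((continuous_eta (a + 1)).comp hc) (fun θ => ?_) hz
    show eta (a + 1) (P (θ + 2 * Real.pi)) = eta (a + 1) (P θ)
    rw [hP]
    have := eta_add (A := a + 1) (Nat.succ_pos a) (P θ) 1
    rwa [Int.cast_one, one_mul] at this
  hom := fun r hr z => by
    show eta (a + 1) (P (Complex.arg (r • z))) = eta (a + 1) (P (Complex.arg z))
    rw [arg_smul_pos hr]
  nonneg := fun z => eta_nonneg _ _
  le_one := fun z => eta_le_one _ _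
  left := fun z hz hz' => by
    show eta (a + 1) (P (Complex.arg z)) = 0
    obtain ⟨n, hn⟩ := h.neg z hz (by rwa [abs_of_neg hz])
    have h1 := eta_add (A := a + 1) (Nat.succ_pos a) (P (Complex.arg z) - n * ((a + 1 : ℕ) : ℝ)) n
    rw [sub_add_cancel] at h1
    rw [h1]
    exact eta_zero (k := 0) (Nat.succ_pos a) (by omega) (by rwa [Nat.cast_zero, sub_zero])
  zero := fun k z hk hz hz' => by
    show eta (a + 1) (P (Complex.arg z)) = 0
    have h1 := h.pos z k (by omega) hz hz'
    exact eta_zero (k := k + 1) (Nat.succ_pos a) (by omega) (by rwa [Nat.cast_succ])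
  one := fun z hz hz' => by
    show eta (a + 1) (P (Complex.arg z)) = 1
    have h1 := h.pos z (a - 2 + 1) (by omega) hz hz'
    have h2 : a - 2 + 1 + 1 = a := by omega
    refine eta_one (k := a - 2 + 1 + 1) (Nat.succ_pos a) (by omega) ?_
    rwa [Nat.cast_succ]

/-- The cut-off functions of the step (D) for the family `P1`. -/
theorem cutOff_P1 {a : ℕ} (ha : 2 ≤ a) {d : ℝ} (h : NearP (a + 1) (P1 (a + 1)) d) :
    CutOff d (a - 2) (fun z => eta (a + 1) (P1 (a + 1) (Complex.arg z))) :=
  cutOff ha (continuous_P1 (by omega)) (fun θ => P1_add (by omega) θ) h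

end Vale.Agent.P268.T.H500
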