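import Vale.Agent.P268.T.H500.GateLoops

/-!
# P268, topological half, route V: the stages (A), (B), (C) of the planar families
-/

set_option linter.unusedSectionVars false

namespace Vale.Agent.P268.T

open Set Filter Topology H500

theorem norm_eP_sub_le (p q : ℝ) : ‖eP p - eP q‖ ≤ 2 * (2 * Real.pi * |p - q|) := by
  have hp := Real.pi_pos
  refine (norm_circle_sub_le _ _).trans (le_of_eq ?_)
  rw [← mul_sub, abs_mul, abs_of_pos (by positivity : 0 < 2 * Real.pi)]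

theorem eP_re (p : ℝ) : (eP p).re = Real.cos (2 * Real.pi * p) := rfl

theorem eP_P1 {A : ℕ} (c θ : ℝ) : eP (P1 A θ) - ((c : ℝ) : ℂ) = expA A c (psiT A θ) := by
  have hp := Real.pi_pos
  have e : 2 * Real.pi * P1 A θ = A * psiT A θ + 2 * Real.pi := by
    rw [P1]; field_simp
  apply Complex.ext
  · rw [Complex.sub_re, eP_re, e, Real.cos_add_two_pi, Complex.ofReal_re]
    rfl
  · have : (eP (P1 A θ)).im = Real.sin (2 * Real.pi * P1 A θ) := rfl
    rw [Complex.sub_im, this, e, Real.sin_add_two_pi, Complex.ofReal_im, sub_zero]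
    rfl

/-! ### Stage (A) -/

/-- The index functions of stage (A). -/
noncomputable def PA (A : ℕ) (t θ : ℝ) : ℝ := (1 - t) * P0 A θ + t * P1 A θ

theorem continuous_PA {A : ℕ} (hA : 2 ≤ A) : Continuous fun q : ℝ × ℝ => PA A q.1 q.2 := by
  have h1 := continuous_P0 A
  have h2 := continuous_P1 hA
  unfold PA
  fun_prop

theorem PA_add {A : ℕ} (hA : 2 ≤ A) (t θ : ℝ) : PA A t (θ + 2 * Real.pi) = PA A t θ + A := by
  rw [PA, PA, P0_add, P1_add hA]
  ring

theorem PA_incr {A : ℕ} (hA : 2 ≤ A) : ∃ Λ : ℝ, ∀ t ∈ Icc (0 : ℝ) 1, ∀ x y : ℝ, x ≤ y →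
    0 ≤ PA A t y - PA A t x ∧ PA A t y - PA A t x ≤ Λ * (y - x) := by
  obtain ⟨m, L, h⟩ := P1_incBi hA
  refine ⟨(2 * A + 1) / (2 * Real.pi) + L, fun t ht x y hxy => ?_⟩
  obtain ⟨a1, a2⟩ := P0_incr A hxy
  obtain ⟨b1, b2⟩ := h.2 x y hxy
  have hL := h.L_nonneg
  have hm := h.1
  have hp := Real.pi_pos
  have hd : 0 ≤ y - x := by linarith
  have b0 : 0 ≤ P1 A y - P1 A x := (mul_nonneg hm.le hd).trans b1
  have t0 : 0 ≤ 1 - t := by linarith [ht.2]
  have e : PA A t y - PA A t x = (1 - t) * (P0 A y - P0 A x) + t * (P1 A y - P1 A x) := by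
    rw [PA, PA]; ring
  rw [e]
  refine ⟨add_nonneg (mul_nonneg t0 a1) (mul_nonneg ht.1 b0), ?_⟩
  have k1 : (1 - t) * (P0 A y - P0 A x) ≤ 1 * ((2 * A + 1) / (2 * Real.pi) * (y - x)) :=
    mul_le_mul (by linarith [ht.1]) a2 a1 zero_le_one
  have k2 : t * (P1 A y - P1 A x) ≤ 1 * (L * (y - x)) :=
    mul_le_mul ht.2 b2 b0 zero_le_one
  linarith

theorem scale_pair {c μ Λ d p q : ℝ} (hc : 0 ≤ c) (h1 : μ * d ≤ p - q) (h2 : p - q ≤ Λ * d) :
    c * μ * d ≤ c * p - c * q ∧ c * p - c * q ≤ c * Λ * d := by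
  have k1 := mul_le_mul_of_nonneg_left h1 hc
  have k2 := mul_le_mul_of_nonneg_left h2 hc
  constructor <;> linarith

theorem turnFam_A {A : ℕ} (hA : 2 ≤ A) :
    TurnFam (Icc (0 : ℝ) 1) (fun t θ => eP ((1 - t) * P0 A θ + t * P1 A θ)) := by
  have hp := Real.pi_pos
  have hc := continuous_PA hA
  obtain ⟨Λ, hΛ⟩ := PA_incr hA
  obtain ⟨m, L, h⟩ := P1_incBi hA
  refine ⟨(continuous_eP.comp hc).continuousOn, ⟨1, fun t _ θ => ?_⟩, fun t _ θ => ?_,
    fun t₀ ht₀ θ₀ h0 => ⟨?_, ?_⟩⟩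
  · rw [eP_eq_eI]
    exact (norm_eI _).le
  · show eP (PA A t (θ + 2 * Real.pi)) = eP (PA A t θ)
    rw [PA_add hA]
    exact eP_add_int _ A
  · show eP (PA A t₀ θ₀) ≠ 0
    rw [eP_eq_eI]
    exact eI_ne_zero _
  · have e0 : (fun t θ => eP ((1 - t) * P0 A θ + t * P1 A θ)) =
        fun t θ => RV.eI (2 * Real.pi * PA A t θ) := by
      funext t θ
      rw [eP_eq_eI]
      rfl
    have hcV : ContinuousWithinAt (fun p : ℝ × ℝ => 2 * Real.pi * PA A p.1 p.2)
        (Icc (0 : ℝ) 1 ×ˢ univ) (t₀, θ₀) :=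
      (continuous_const.mul hc).continuousAt.continuousWithinAt
    have e : ∀ t x y, PA A t y - PA A t x = (1 - t) * (P0 A y - P0 A x) +
        t * (P1 A y - P1 A x) := fun t x y => by rw [PA, PA]; ring
    rw [e0]
    rcases ht₀.1.eq_or_lt with h1 | h1
    · have h2 : dZ (P0 A θ₀) < 1 / 2 := by
        by_contra hcon
        push Not at hcon
        have h3 := cos_neg_of_dZ (p := P0 A θ₀) (by linarith)
        have h4 : 0 ≤ Real.cos (2 * Real.pi * ((1 - t₀) * P0 A θ₀ + t₀ * P1 A θ₀)) := h0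
        rw [← h1, sub_zero, one_mul, zero_mul, add_zero] at h4
        linarith
      obtain ⟨δ, hδ, hl⟩ := P0_slope h2
      refine argTurn_eI (μ := 2 * Real.pi * (1 / 2 * ((2 * A + 1) / (2 * Real.pi))))
        (Λ := 2 * Real.pi * Λ) (δ := δ) hcV (by positivity) hδ ?_
      have h3 : ∀ᶠ t : ℝ in 𝓝[Icc 0 1] t₀, t < 1 / 2 :=
        nhdsWithin_le_nhds (gt_mem_nhds (by rw [← h1]; norm_num))
      filter_upwards [self_mem_nhdsWithin, h3] with t ht ht2 x y hx hy hxy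
      obtain ⟨a1, a2⟩ := hΛ t ht x y hxy
      refine scale_pair (by positivity : 0 ≤ 2 * Real.pi) ?_ a2
      rw [e, hl x y hx hy]
      have b := (h.2 x y hxy).1
      have b' : 0 ≤ m * (y - x) := mul_nonneg h.1.le (by linarith)
      have c1 : 0 ≤ t * (P1 A y - P1 A x) := mul_nonneg ht.1 (by linarith)
      have c0 : 0 ≤ (2 * (A : ℝ) + 1) / (2 * Real.pi) * (y - x) :=
        mul_nonneg (by positivity) (by linarith)
      have c2 : 1 / 2 * ((2 * (A : ℝ) + 1) / (2 * Real.pi) * (y - x)) ≤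
          (1 - t) * ((2 * (A : ℝ) + 1) / (2 * Real.pi) * (y - x)) :=
        mul_le_mul_of_nonneg_right (by linarith) c0
      linarith
    · refine argTurn_eI (μ := 2 * Real.pi * (t₀ / 2 * m)) (Λ := 2 * Real.pi * Λ) (δ := 1) hcV
        (mul_pos (by positivity) (mul_pos (by linarith) h.1)) one_pos ?_
      have h3 : ∀ᶠ t : ℝ in 𝓝[Icc 0 1] t₀, t₀ / 2 < t :=
        nhdsWithin_le_nhds (lt_mem_nhds (by linarith))
      filter_upwards [self_mem_nhdsWithin, h3] with t ht ht2 x y hx hy hxy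
      obtain ⟨a1, a2⟩ := hΛ t ht x y hxy
      refine scale_pair (by positivity : 0 ≤ 2 * Real.pi) ?_ a2
      rw [e]
      have a := (P0_incr A hxy).1
      have b := (h.2 x y hxy).1
      have c1 : 0 ≤ (1 - t) * (P0 A y - P0 A x) := mul_nonneg (by linarith [ht.2]) a
      have c2 : t₀ / 2 * (m * (y - x)) ≤ t * (P1 A y - P1 A x) :=
        mul_le_mul ht2.le b (mul_nonneg h.1.le (by linarith)) (by linarith)
      linarith

/-- **Stage (A)**: from the profile to `e^{2πi P1}`. -/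
theorem turnData_A {A : ℕ} (hA : 2 ≤ A) :
    TurnData A (fun t θ => eP ((1 - t) * P0 A θ + t * P1 A θ))
      (fun t θ => (1 - t) * P0 A θ + t * P1 A θ) where
  fam := turnFam_A hA
  re_le := fun _ _ _ => Real.cos_le_one _
  Pcont := continuous_PA hA
  Pper := fun t θ => PA_add hA t θ
  neg := fun _ _ _ h => cos_neg_of_dZ h

/-! ### Stage (B) -/

/-- **Stage (B)**: shrinking of the windows. -/
theorem turnData_B {A : ℕ} (hA : 2 ≤ A) {c : ℝ} (hc0 : 0 ≤ c) (hc : c < 1) :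
    TurnData A (fun t θ => eP (P1 A θ) - ((t * c : ℝ) : ℂ)) (fun _ => P1 A) := by
  have hA' : (2 : ℤ) ≤ (A : ℤ) := by exact_mod_cast hA
  refine ⟨?_, fun t ht θ => ?_, (continuous_P1 hA).comp continuous_snd, fun _ => P1_add hA,
    fun t ht θ h => ?_⟩
  · obtain ⟨m, L, h⟩ := psiT_incBi hA'
    have h1 := turnFam_comp (turnFam_expA (A := (A : ℤ)) (by omega) hc0 hc) h (psiT_per hA')
    have e : (fun t θ => eP (P1 A θ) - ((t * c : ℝ) : ℂ)) =
        fun (t : ℝ) θ => expA A (t * c) (psiT A θ) := by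
      funext t θ
      exact eP_P1 _ _
    rw [e]
    exact h1
  · rw [Complex.sub_re, Complex.ofReal_re, eP_re]
    have := Real.cos_le_one (2 * Real.pi * P1 A θ)
    have := mul_nonneg ht.1 hc0
    linarith
  · rw [Complex.sub_re, Complex.ofReal_re, eP_re]
    have := cos_neg_of_dZ h
    have := mul_nonneg ht.1 hc0
    linarith

/-! ### Stage (C) -/

theorem gS_re_le {σ : Type} [Fintype σ] [Nonempty σ] {ε : ℝ} (hε : 0 ≤ ε)
    (K : σ → Fin 1 → ℕ) (θ : ℝ) : (gS ε K θ).re ≤ ε := by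
  rw [gS, FS1_re]
  refine Finset.sup'_le _ _ fun a _ => ?_
  unfold ray
  simp only
  have h1 := mul_le_mul_of_nonneg_left (Real.abs_cos_le_one θ) hε
  have h2 := abs_nonneg (Real.sin θ - (K a 0 : ℕ) * max (Real.cos θ) 0)
  linarith

/-- **Stage (C)**: the straight path to the rays. -/
theorem turnData_C {A : ℕ} (hA : 2 ≤ A) : ∃ c : ℝ, 0 ≤ c ∧ c < 1 ∧ ∃ ε₁ : ℝ, 0 < ε₁ ∧
    ∀ ε ∈ Ioc 0 ε₁, ∀ (σ : Type) [Fintype σ] [Nonempty σ] (K : σ → Fin 1 → ℕ),
      (∀ k : ℕ, (∃ a, K a 0 = k) ↔ k + 1 < A) →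
      TurnData A (fun t θ => (1 - t) • (eP (P1 A θ) - ((c : ℝ) : ℂ)) + t • gS ε K θ)
        (fun _ => P1 A) := by
  have hp := Real.pi_pos
  have hA' : (2 : ℤ) ≤ (A : ℤ) := by exact_mod_cast hA
  have hA0 : (0 : ℝ) < A := by exact_mod_cast (by omega : 0 < A)
  obtain ⟨m, L, hΨ⟩ := psiT_incBi hA'
  obtain ⟨m₁, L₁, hP⟩ := P1_incBi hA
  have hΨp := psiT_per hA'
  obtain ⟨R, hR0, hR1, hR⟩ := exists_radiusR A
  have hL := hΨ.L_nonneg
  have hL₁ := hP.L_nonneg
  have hm := hΨ.1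
  set ω : ℝ := Real.pi / 2 / A with hω
  have hω0 : 0 < ω := by positivity
  set ω₀ : ℝ := min R (ω / L) with hω₀
  have hω₀0 : 0 < ω₀ := lt_min hR0 (by positivity)
  set r : ℝ := min (Real.pi / 2) (A * m * ω₀ / 2) with hr
  have hr0 : 0 < r := lt_min (by positivity) (by positivity)
  have hr1 : r ≤ Real.pi / 2 := min_le_left _ _
  have hr2 : 2 * r / A / m ≤ ω₀ := by
    have : r ≤ A * m * ω₀ / 2 := min_le_right _ _
    rw [div_le_iff₀ hm, div_le_iff₀ hA0]
    linarith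
  set ε₁ : ℝ := min (1 / 8) (min (ω₀ / 4) (3 / 10 / L₁ / 4)) with hε₁
  have hε₁0 : 0 < ε₁ := lt_min (by norm_num) (lt_min (by positivity) (by positivity))
  have e1 : ε₁ ≤ 1 / 8 := min_le_left _ _
  have e2 : 4 * ε₁ ≤ ω₀ := by
    have : ε₁ ≤ ω₀ / 4 := (min_le_right _ _).trans (min_le_left _ _)
    linarith
  have e3 : L₁ * (4 * ε₁) ≤ 3 / 10 := by
    have : ε₁ ≤ 3 / 10 / L₁ / 4 := (min_le_right _ _).trans (min_le_right _ _)
    rw [div_div, le_div_iff₀ (by positivity)] at this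
    linarith
  have hc1 : Real.cos r < 1 := by
    have := Real.cos_lt_cos_of_nonneg_of_le_pi le_rfl (by linarith : r ≤ Real.pi) hr0
    rwa [Real.cos_zero] at this
  have hc0 : 0 ≤ Real.cos r :=
    Real.cos_nonneg_of_neg_pi_div_two_le_of_le (by linarith) hr1
  have hE0 := win_expA (A := (A : ℤ)) (by omega) hr0 (by linarith : r ≤ Real.pi) (ω := ω) (by
    rw [hω]; push_cast; apply le_of_eq; field_simp)
  have hE : Win (fun θ => expA A (Real.cos r) (psiT A θ)) (range (cen (A : ℤ))) ω₀ ω₀ := by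
    have h1 := hE0.comp (C' := range (cen (A : ℤ))) hΨ hΨp ?_ ?_
    · exact h1.mono (by exact_mod_cast hr2) (min_le_right _ _)
    · rintro c ⟨j, rfl⟩
      exact ⟨_, ⟨j, rfl⟩, psiT_cen hA' j⟩
    · rintro c ⟨j, rfl⟩
      exact ⟨j, (psiT_cen hA' j).symm⟩
  refine ⟨Real.cos r, hc0, hc1, ε₁, hε₁0, fun ε hε σ _ _ K hK => ?_⟩
  have hg := win_gS hA hK hR1 hR hε.1 (hε.2.trans e1)
  have h4 : 4 * ε ≤ 4 * ε₁ := by linarith [hε.2]
  refine ⟨?_, fun t ht θ => ?_, (continuous_P1 hA).comp continuous_snd, fun _ => P1_add hA,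
    fun t ht θ h => ?_⟩
  · have h1 := hE.straight (hg.mono (h4.trans e2) (min_le_left _ _))
    have e : (fun (t : ℝ) θ => (1 - t) • (eP (P1 A θ) - ((Real.cos r : ℝ) : ℂ)) +
        t • gS ε K θ) = fun (t : ℝ) θ => (1 - t) • expA A (Real.cos r) (psiT A θ) +
        t • gS ε K θ := by
      funext t θ
      rw [eP_P1]
    rw [e]
    exact h1
  · rw [Complex.add_re, Complex.smul_re, Complex.smul_re, smul_eq_mul, smul_eq_mul,
      Complex.sub_re, Complex.ofReal_re, eP_re]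
    have k1 : (1 - t) * (Real.cos (2 * Real.pi * P1 A θ) - Real.cos r) ≤ (1 - t) * 1 :=
      mul_le_mul_of_nonneg_left (by linarith [Real.cos_le_one (2 * Real.pi * P1 A θ)])
        (by linarith [ht.2])
    have k2 : t * (gS ε K θ).re ≤ t * 1 :=
      mul_le_mul_of_nonneg_left ((gS_re_le hε.1.le K θ).trans (by linarith [hε.2])) ht.1
    linarith
  · have h1 := cos_neg_of_dZ h
    have h2 : (gS ε K θ).re < 0 := by
      by_contra hcon
      push Not at hcon
      obtain ⟨c, ⟨j, rfl⟩, hj⟩ := hg.near θ hcon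
      have h5 := (hP.abs_le θ (cen A j)).2
      rw [P1_cen hA] at h5
      have h6 : dZ (P1 A θ) ≤ |P1 A θ - ((j + 1 : ℤ) : ℝ)| := dZ_le _ _
      push_cast at h6
      have h7 : L₁ * |θ - cen A j| < L₁ * (4 * ε) := mul_lt_mul_of_pos_left hj hL₁
      have h8 : L₁ * (4 * ε) ≤ L₁ * (4 * ε₁) := mul_le_mul_of_nonneg_left h4 hL₁.le
      linarith
    rw [Complex.add_re, Complex.smul_re, Complex.smul_re, smul_eq_mul, smul_eq_mul,
      Complex.sub_re, Complex.ofReal_re, eP_re]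
    have h3 : Real.cos (2 * Real.pi * P1 A θ) - Real.cos r < 0 := by linarith
    rcases ht.1.eq_or_lt with h9 | h9
    · rw [← h9]; linarith
    · have k1 : (1 - t) * (Real.cos (2 * Real.pi * P1 A θ) - Real.cos r) ≤ 0 :=
        mul_nonpos_of_nonneg_of_nonpos (by linarith [ht.2]) h3.le
      have k2 : t * (gS ε K θ).re < 0 := mul_neg_of_pos_of_neg h9 h2
      linarith

end Vale.Agent.P268.T
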