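import Vale.Agent.P268.T.H500.Inv

/-!
# P268, topological half: the turning function with clamped slope (globally Lipschitz)
-/

set_option linter.unusedSectionVars false

namespace Vale.Agent.P268.T

open Set Filter Topology

theorem tri_lip (w w' : ℝ) : |tri w - tri w'| ≤ |w - w'| := by
  rw [tri, tri, abs_fract_sub_half, abs_fract_sub_half]
  have h1 : 1 / 4 - ‖((w + 1 / 4 - 1 / 2 : ℝ) : UnitAddCircle)‖ -
      (1 / 4 - ‖((w' + 1 / 4 - 1 / 2 : ℝ) : UnitAddCircle)‖) =
      ‖((w' + 1 / 4 - 1 / 2 : ℝ) : UnitAddCircle)‖ -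
      ‖((w + 1 / 4 - 1 / 2 : ℝ) : UnitAddCircle)‖ := by ring
  rw [h1]
  refine (abs_norm_sub_norm_le _ _).trans ?_
  rw [← QuotientAddGroup.mk_sub]
  refine QuotientAddGroup.norm_mk_le_norm.trans ?_
  have h2 : w' + 1 / 4 - 1 / 2 - (w + 1 / 4 - 1 / 2) = -(w - w') := by ring
  rw [h2, Real.norm_eq_abs, abs_neg]

/-- Clamp to `[-b, b]`. -/
noncomputable def clampb (b w : ℝ) : ℝ := max (-b) (min b w)

theorem clampb_eq {b w : ℝ} (h : |w| ≤ b) : clampb b w = w := by
  obtain ⟨h1, h2⟩ := abs_le.mp h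
  rw [clampb, min_eq_right h2, max_eq_right h1]

theorem abs_clampb_le {b : ℝ} (hb : 0 ≤ b) (w : ℝ) : |clampb b w| ≤ b := by
  rw [clampb, abs_le]
  exact ⟨le_max_left _ _, max_le (by linarith) (min_le_left _ _)⟩

/-- The turning function with clamped slope. -/
noncomputable def turnb (b : ℝ) (z : ℂ) : ℝ := z.re * tri (clampb b (z.im / |z.re|))

theorem turnb_eq {b : ℝ} {z : ℂ} (h : |z.im| ≤ b * |z.re|) : turnb b z = turn z := by
  by_cases h0 : z.re = 0
  · rw [turnb, turn, h0, zero_mul, zero_mul]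
  · have h1 : 0 < |z.re| := abs_pos.mpr h0
    rw [turnb, turn, clampb_eq]
    rw [abs_div, abs_abs, div_le_iff₀ h1]
    exact h

theorem turnb_smul {b r : ℝ} (hr : 0 ≤ r) (z : ℂ) : turnb b (r • z) = r * turnb b z := by
  rcases hr.eq_or_lt with rfl | hr
  · simp [turnb]
  · rw [turnb, turnb, Complex.smul_re, Complex.smul_im, smul_eq_mul, smul_eq_mul, abs_mul,
      abs_of_pos hr, mul_div_mul_left _ _ hr.ne', mul_assoc]

theorem turnb_bound (b : ℝ) (z : ℂ) : |turnb b z| ≤ 1 / 4 * |z.re| := by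
  rw [turnb, abs_mul, mul_comm]
  exact mul_le_mul_of_nonneg_right (tri_bound' _) (abs_nonneg _)

theorem clampb_scale {b s v : ℝ} (hs : 0 < s) :
    s * clampb b (v / s) = max (-(b * s)) (min (b * s) v) := by
  rw [clampb, mul_max_of_nonneg _ _ hs.le, mul_min_of_nonneg _ _ hs.le, mul_div_cancel₀ _ hs.ne']
  congr 1
  · ring
  · congr 1
    ring

/-- The estimate on a half plane. -/
theorem turnb_half {b s s' v v' : ℝ} (hb : 0 ≤ b) (hs' : 0 < s') (hss : s' ≤ s) :
    |s * tri (clampb b (v / s)) - s' * tri (clampb b (v' / s'))| ≤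
      (2 * b + 1) * |s - s'| + |v - v'| := by
  have hs : 0 < s := hs'.trans_le hss
  set w := clampb b (v / s) with hw
  set w' := clampb b (v' / s') with hw'
  have e1 : s * tri w - s' * tri w' = (s - s') * tri w + s' * (tri w - tri w') := by ring
  have h1 : |(s - s') * tri w| ≤ 1 / 4 * |s - s'| := by
    rw [abs_mul, mul_comm]
    exact mul_le_mul_of_nonneg_right (tri_bound' _) (abs_nonneg _)
  have h2 : |s' * (tri w - tri w')| ≤ |s' * w - s' * w'| := by
    rw [abs_mul, abs_of_pos hs', ← mul_sub, abs_mul, abs_of_pos hs']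
    exact mul_le_mul_of_nonneg_left (tri_lip _ _) hs'.le
  have h3 : |s' * w - s' * w'| ≤ |s * w - s' * w'| + b * |s - s'| := by
    have e2 : s' * w - s' * w' = (s * w - s' * w') - (s - s') * w := by ring
    rw [e2]
    refine (abs_sub _ _).trans ?_
    have : |(s - s') * w| ≤ b * |s - s'| := by
      rw [abs_mul, mul_comm]
      exact mul_le_mul_of_nonneg_right (abs_clampb_le hb _) (abs_nonneg _)
    linarith
  have h4 : |s * w - s' * w'| ≤ b * |s - s'| + |v - v'| := by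
    rw [hw, hw', clampb_scale hs, clampb_scale hs']
    refine (abs_max_sub_max_le_max _ _ _ _).trans ?_
    have e3 : |-(b * s) - -(b * s')| = b * |s - s'| := by
      have : -(b * s) - -(b * s') = -(b * (s - s')) := by ring
      rw [this, abs_neg, abs_mul, abs_of_nonneg hb]
    have e4 : |min (b * s) v - min (b * s') v'| ≤ b * |s - s'| + |v - v'| := by
      refine (abs_min_sub_min_le_max _ _ _ _).trans ?_
      have e5 : |b * s - b * s'| = b * |s - s'| := by
        rw [← mul_sub, abs_mul, abs_of_nonneg hb]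
      rw [e5]
      exact max_le (by linarith [abs_nonneg (v - v')])
        (by linarith [mul_nonneg hb (abs_nonneg (s - s'))])
    rw [e3]
    exact max_le (by linarith [abs_nonneg (v - v')]) e4
  rw [e1]
  refine (abs_add_le _ _).trans ?_
  linarith [abs_nonneg (s - s')]

theorem turnb_half' {b s s' v v' : ℝ} (hb : 0 ≤ b) (hs : 0 < s) (hs' : 0 < s') :
    |s * tri (clampb b (v / s)) - s' * tri (clampb b (v' / s'))| ≤
      (2 * b + 1) * |s - s'| + |v - v'| := by
  rcases le_total s' s with h | h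
  · exact turnb_half hb hs' h
  · rw [abs_sub_comm, abs_sub_comm s s', abs_sub_comm v v']
    exact turnb_half hb hs h

theorem turnb_lip {b : ℝ} (hb : 0 ≤ b) (z z' : ℂ) :
    |turnb b z - turnb b z'| ≤ (2 * b + 2) * ‖z - z'‖ := by
  have hre : |z.re - z'.re| ≤ ‖z - z'‖ := by
    rw [← Complex.sub_re]; exact Complex.abs_re_le_norm _
  have him : |z.im - z'.im| ≤ ‖z - z'‖ := by
    rw [← Complex.sub_im]; exact Complex.abs_im_le_norm _
  have hmain : |turnb b z - turnb b z'| ≤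
      (2 * b + 1) * |z.re - z'.re| + |z.im - z'.im| := by
    have hcross : |z.re| + |z'.re| = |z.re - z'.re| →
        |turnb b z - turnb b z'| ≤ (2 * b + 1) * |z.re - z'.re| + |z.im - z'.im| := by
      intro h
      have h1 := turnb_bound b z
      have h2 := turnb_bound b z'
      have h3 : |turnb b z - turnb b z'| ≤ |turnb b z| + |turnb b z'| := abs_sub _ _
      have h4 := abs_nonneg (z.im - z'.im)
      have h5 := mul_nonneg hb (abs_nonneg (z.re - z'.re))
      have h6 := abs_nonneg (z.re - z'.re)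
      linarith
    rcases lt_trichotomy z.re 0 with h | h | h
    · rcases lt_or_ge z'.re 0 with h' | h'
      · have h1 := turnb_half' (v := z.im) (v' := z'.im) hb (neg_pos.mpr h) (neg_pos.mpr h')
        have e1 : |-z.re - -z'.re| = |z.re - z'.re| := by
          rw [← abs_neg]; congr 1; ring
        rw [e1] at h1
        have e2 : turnb b z - turnb b z' = -(-z.re * tri (clampb b (z.im / -z.re)) -
            -z'.re * tri (clampb b (z'.im / -z'.re))) := by
          rw [turnb, turnb, abs_of_neg h, abs_of_neg h']; ring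
        rw [e2, abs_neg]
        exact h1
      · refine hcross ?_
        rw [abs_of_neg h, abs_of_nonneg h', abs_of_neg (by linarith : z.re - z'.re < 0)]
        ring
    · refine hcross ?_
      rw [h, abs_zero, zero_add, zero_sub, abs_neg]
    · rcases lt_or_ge 0 z'.re with h' | h'
      · have h1 := turnb_half' (v := z.im) (v' := z'.im) hb h h'
        rw [turnb, turnb, abs_of_pos h, abs_of_pos h']
        exact h1
      · refine hcross ?_
        rw [abs_of_pos h, abs_of_nonpos h', abs_of_nonneg (by linarith : 0 ≤ z.re - z'.re)]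
        ring
  have h1 := mul_le_mul_of_nonneg_left hre (by linarith : 0 ≤ 2 * b + 1)
  linarith

theorem continuous_turnb {b : ℝ} (hb : 0 ≤ b) : Continuous (turnb b) := by
  have : LipschitzWith ⟨2 * b + 2, by linarith⟩ (turnb b) := by
    refine LipschitzWith.of_dist_le_mul fun x y => ?_
    rw [Real.dist_eq, dist_eq_norm]
    exact turnb_lip hb x y
  exact this.continuous

theorem LocWin.congr {f g : ℝ → ℂ} {c θ₀ : ℝ} (h : LocWin f c θ₀) (he : f =ᶠ[𝓝 θ₀] g) :
    LocWin g c θ₀ := by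
  obtain ⟨hs, m, hm, L, δ, hδ, hl⟩ := h
  have h0 : f θ₀ = g θ₀ := he.self_of_nhds
  obtain ⟨δ', hδ', hb⟩ := Metric.eventually_nhds_iff.mp he
  refine ⟨by rw [← h0]; exact hs, m, hm, L, min δ δ', lt_min hδ hδ', fun x y hx hy hxy => ?_⟩
  have ex := hb (y := x) (by rw [Real.dist_eq]; exact hx.trans_le (min_le_right _ _))
  have ey := hb (y := y) (by rw [Real.dist_eq]; exact hy.trans_le (min_le_right _ _))
  rw [← ex, ← ey]
  exact hl x y (hx.trans_le (min_le_left _ _)) (hy.trans_le (min_le_left _ _)) hxy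

/-- In the windows the slope is bounded. -/
theorem window_slope {A : ℕ} (hA : 2 ≤ A) {R : ℝ} (hR1 : R ≤ 1)
    (hR : ∀ x : ℝ, |x| < R → ∀ k < A,
      |Real.sin x| < Real.cos (Real.arctan k) ^ 2 * (Real.cos x - k * Real.sin x) / 4)
    {j : ℤ} {θ₀ : ℝ} (hθ : |θ₀ - cen A j| < R) : |Real.sin θ₀| ≤ A * |Real.cos θ₀| := by
  have hA' : (2 : ℤ) ≤ (A : ℤ) := by exact_mod_cast hA
  have hj : j = j % (A : ℤ) + (j / (A : ℤ)) * A := by
    have := Int.emod_add_mul_ediv j A
    linarith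
  have hj0 : 0 ≤ j % (A : ℤ) := Int.emod_nonneg _ (by omega)
  have hj1 : j % (A : ℤ) < A := Int.emod_lt_of_pos _ (by omega)
  obtain ⟨k, hk⟩ := Int.eq_ofNat_of_zero_le hj0
  set n := j / (A : ℤ) with hn
  rw [hk] at hj hj1
  have hcj : cen A j = cen A (k : ℤ) + 2 * Real.pi * n := by
    rw [← cen_add hA', ← hj]
  have hkA : k < A := by exact_mod_cast hj1
  by_cases hk1 : k + 1 < A
  · have hck : cen A (k : ℤ) = Real.arctan k := by
      rw [cen_of_lt (by omega) (by omega)]; simp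
    rw [hck] at hcj
    obtain ⟨κ0, κ1, κ2⟩ := cos_arctan_facts k
    obtain ⟨r1, r2, r3⟩ := rot_facts k θ₀
    have hRx := hR (θ₀ - cen A j) hθ k hkA
    set κ := Real.cos (Real.arctan k) with hκ
    set x := θ₀ - cen A j with hx
    have hx' : x = (θ₀ - Real.arctan k) - 2 * Real.pi * n := by rw [hx, hcj]; ring
    have hs : Real.sin (θ₀ - Real.arctan k) = Real.sin x := by rw [hx', sin_sub_int]
    have hc : Real.cos (θ₀ - Real.arctan k) = Real.cos x := by rw [hx', cos_sub_int]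
    rw [hs] at r1 r3
    rw [hc] at r2 r3
    have hcos : 0 < Real.cos θ₀ := by
      rw [r3]
      have h1 := abs_nonneg (Real.sin x)
      have h2 : 0 < κ ^ 2 * (Real.cos x - k * Real.sin x) := by linarith
      have h3 := (mul_pos_iff_of_pos_left (by positivity)).mp h2
      exact mul_pos κ0 h3
    have hlt : |Real.sin θ₀ - k * Real.cos θ₀| < Real.cos θ₀ / 4 := by
      have h1 : κ * |Real.sin θ₀ - k * Real.cos θ₀| < κ * (Real.cos θ₀ / 4) := by
        calc κ * |Real.sin θ₀ - k * Real.cos θ₀| = |Real.sin x| := by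
              rw [r1, abs_mul, abs_of_pos κ0]
          _ < κ ^ 2 * (Real.cos x - k * Real.sin x) / 4 := hRx
          _ = κ * (Real.cos θ₀ / 4) := by rw [r3]; ring
      exact lt_of_mul_lt_mul_left h1 κ0.le
    have h5 : |Real.sin θ₀| ≤ |Real.sin θ₀ - k * Real.cos θ₀| + k * Real.cos θ₀ := by
      have : Real.sin θ₀ = (Real.sin θ₀ - k * Real.cos θ₀) + k * Real.cos θ₀ := by ring
      conv_lhs => rw [this]
      refine (abs_add_le _ _).trans ?_
      rw [abs_of_nonneg (mul_nonneg (Nat.cast_nonneg k) hcos.le)]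
    rw [abs_of_pos hcos]
    have h6 : ((k : ℝ) + 1) * Real.cos θ₀ ≤ A * Real.cos θ₀ :=
      mul_le_mul_of_nonneg_right (by exact_mod_cast hkA) hcos.le
    linarith
  · have hk2 : (k : ℤ) = (A : ℤ) - 1 := by omega
    rw [hk2, cen_last hA'] at hcj
    have hRx := hR (θ₀ - cen A j) hθ 0 (by omega)
    rw [Nat.cast_zero, Real.arctan_zero, Real.cos_zero] at hRx
    set x := θ₀ - cen A j with hx
    have hx' : x = (θ₀ - Real.pi) - 2 * Real.pi * n := by rw [hx, hcj]; ring
    have hs : -Real.sin θ₀ = Real.sin x := by rw [hx', sin_sub_int, Real.sin_sub_pi]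
    have hc : -Real.cos θ₀ = Real.cos x := by rw [hx', cos_sub_int, Real.cos_sub_pi]
    rw [← abs_neg, hs, ← abs_neg (Real.cos θ₀), hc]
    have h1 := le_abs_self (Real.cos x)
    have h2 : (2 : ℝ) ≤ A := by exact_mod_cast hA
    have h3 : 2 * |Real.cos x| ≤ A * |Real.cos x| :=
      mul_le_mul_of_nonneg_right h2 (abs_nonneg _)
    linarith [abs_nonneg (Real.cos x)]

/-- Comparison of finite maxima. -/
theorem abs_sup'_sub_le {σ : Type} [Fintype σ] [Nonempty σ] {f g : σ → ℝ} {C : ℝ}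
    (h : ∀ a, |f a - g a| ≤ C) :
    |Finset.univ.sup' Finset.univ_nonempty f - Finset.univ.sup' Finset.univ_nonempty g| ≤ C := by
  have key : ∀ f g : σ → ℝ, (∀ a, |f a - g a| ≤ C) →
      Finset.univ.sup' Finset.univ_nonempty f ≤
        Finset.univ.sup' Finset.univ_nonempty g + C := by
    intro f g h
    refine Finset.sup'_le _ _ fun a _ => ?_
    have h1 := (abs_le.mp (h a)).2
    have h2 := Finset.le_sup' g (Finset.mem_univ a)
    linarith
  rw [abs_le]
  have h1 := key f g h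
  have h2 := key g f fun a => by rw [abs_sub_comm]; exact h a
  constructor <;> linarith

theorem ray_lip {ε : ℝ} (hε : 0 ≤ ε) (k : ℕ) (z z' : ℂ) :
    |ray ε k z - ray ε k z'| ≤ (ε + (1 + k)) * ‖z - z'‖ := by
  have hre : |z.re - z'.re| ≤ ‖z - z'‖ := by
    rw [← Complex.sub_re]; exact Complex.abs_re_le_norm _
  have him : |z.im - z'.im| ≤ ‖z - z'‖ := by
    rw [← Complex.sub_im]; exact Complex.abs_im_le_norm _
  have hk : (0 : ℝ) ≤ k := Nat.cast_nonneg k
  have h1 : |(|z.re| - |z'.re|)| ≤ ‖z - z'‖ := (abs_abs_sub_abs_le _ _).trans hre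
  have h2 : |max z.re 0 - max z'.re 0| ≤ ‖z - z'‖ := by
    refine (abs_max_sub_max_le_abs _ _ _).trans hre
  have h3 : |(|z.im - k * max z.re 0| - |z'.im - k * max z'.re 0|)| ≤ (1 + k) * ‖z - z'‖ := by
    refine (abs_abs_sub_abs_le _ _).trans ?_
    have e : z.im - k * max z.re 0 - (z'.im - k * max z'.re 0) =
        (z.im - z'.im) - k * (max z.re 0 - max z'.re 0) := by ring
    rw [e]
    refine (abs_sub _ _).trans ?_
    rw [abs_mul, abs_of_nonneg hk, add_mul, one_mul]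
    exact add_le_add him (mul_le_mul_of_nonneg_left h2 hk)
  have e : ray ε k z - ray ε k z' = ε * (|z.re| - |z'.re|) -
      (|z.im - k * max z.re 0| - |z'.im - k * max z'.re 0|) / 2 := by
    rw [ray, ray]; ring
  rw [e]
  refine (abs_sub _ _).trans ?_
  rw [abs_mul, abs_of_nonneg hε, abs_div, abs_of_pos (zero_lt_two' ℝ), add_mul]
  have h4 := mul_le_mul_of_nonneg_left h1 hε
  have h5 := norm_nonneg (z - z')
  have h6 : 0 ≤ (1 + (k : ℝ)) * ‖z - z'‖ := by positivity
  linarith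

section

variable {σ : Type} [Fintype σ] [Nonempty σ]

/-- The ray function on the plane with the clamped turning function. -/
noncomputable def FS1b (ε b : ℝ) (K : σ → Fin 1 → ℕ) (z : ℂ) : ℂ :=
  ⟨Finset.univ.sup' Finset.univ_nonempty fun a => ray ε (K a 0) z, turnb b z⟩

theorem FS1b_re (ε b : ℝ) (K : σ → Fin 1 → ℕ) (z : ℂ) : (FS1b ε b K z).re = (FS1 ε K z).re := by
  rw [FS1_re]
  rfl

theorem FS1b_smul (ε b : ℝ) (K : σ → Fin 1 → ℕ) {r : ℝ} (hr : 0 ≤ r) (z : ℂ) :
    FS1b ε b K (r • z) = r • FS1b ε b K z := by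
  apply Complex.ext
  · rw [FS1b_re, FS1_smul ε K hr, Complex.smul_re, Complex.smul_re, FS1b_re]
  · rw [Complex.smul_im, smul_eq_mul]
    exact turnb_smul hr z

/-- The clamped ray function on the circle. -/
noncomputable def gSb (ε b : ℝ) (K : σ → Fin 1 → ℕ) (θ : ℝ) : ℂ :=
  FS1b ε b K ⟨Real.cos θ, Real.sin θ⟩

theorem pol_gSb (ε b : ℝ) (K : σ → Fin 1 → ℕ) (z : ℂ) : pol (gSb ε b K) z = FS1b ε b K z := by
  rw [pol, gSb, ← FS1b_smul ε b K (norm_nonneg z)]
  congr 1
  apply Complex.ext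
  · rw [Complex.smul_re, smul_eq_mul, Complex.norm_mul_cos_arg]
  · rw [Complex.smul_im, smul_eq_mul, Complex.norm_mul_sin_arg]

theorem gSb_re (ε b : ℝ) (K : σ → Fin 1 → ℕ) (θ : ℝ) : (gSb ε b K θ).re = (gS ε K θ).re :=
  FS1b_re _ _ _ _

theorem gSb_per (ε b : ℝ) (K : σ → Fin 1 → ℕ) : Function.Periodic (gSb ε b K) (2 * Real.pi) := by
  intro θ
  rw [gSb, gSb, Real.cos_add_two_pi, Real.sin_add_two_pi]

theorem FS1b_lip {ε b : ℝ} (hε : 0 ≤ ε) (hb : 0 ≤ b) {K : σ → Fin 1 → ℕ} {N : ℝ}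
    (hN : ∀ a, (K a 0 : ℝ) ≤ N) (z z' : ℂ) :
    ‖FS1b ε b K z - FS1b ε b K z'‖ ≤ (ε + (1 + N) + (2 * b + 2)) * ‖z - z'‖ := by
  refine (Complex.norm_le_abs_re_add_abs_im _).trans ?_
  rw [add_mul]
  refine add_le_add ?_ (turnb_lip hb z z')
  refine abs_sup'_sub_le fun a => (ray_lip hε _ _ _).trans ?_
  exact mul_le_mul_of_nonneg_right (by linarith [hN a]) (norm_nonneg _)

theorem norm_circle_sub_le (x y : ℝ) :
    ‖(⟨Real.cos x, Real.sin x⟩ : ℂ) - ⟨Real.cos y, Real.sin y⟩‖ ≤ 2 * |x - y| := by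
  refine (Complex.norm_le_abs_re_add_abs_im _).trans ?_
  have h1 : |Real.cos x - Real.cos y| ≤ |x - y| := by
    have := Real.lipschitzWith_cos.dist_le_mul x y
    simpa [Real.dist_eq] using this
  have h2 : |Real.sin x - Real.sin y| ≤ |x - y| := by
    have := Real.lipschitzWith_sin.dist_le_mul x y
    simpa [Real.dist_eq] using this
  show |Real.cos x - Real.cos y| + |Real.sin x - Real.sin y| ≤ _
  linarith

theorem gSb_lip {ε b : ℝ} (hε : 0 ≤ ε) (hb : 0 ≤ b) {K : σ → Fin 1 → ℕ} {N : ℝ}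
    (hN : ∀ a, (K a 0 : ℝ) ≤ N) (x y : ℝ) :
    ‖gSb ε b K x - gSb ε b K y‖ ≤ (ε + (1 + N) + (2 * b + 2)) * 2 * |x - y| := by
  have h0 : 0 ≤ N := (Nat.cast_nonneg _).trans (hN (Classical.arbitrary σ))
  refine (FS1b_lip hε hb hN _ _).trans ?_
  rw [mul_assoc]
  exact mul_le_mul_of_nonneg_left (norm_circle_sub_le _ _) (by linarith)

theorem gSb_cont {ε b : ℝ} (hε : 0 ≤ ε) (hb : 0 ≤ b) (K : σ → Fin 1 → ℕ) :
    Continuous (gSb ε b K) := by
  obtain ⟨N, hN⟩ : ∃ N : ℝ, ∀ a, (K a 0 : ℝ) ≤ N := by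
    obtain ⟨N, hN⟩ := (Set.finite_range fun a => (K a 0 : ℝ)).bddAbove
    exact ⟨N, fun a => hN ⟨a, rfl⟩⟩
  have h0 : 0 ≤ N := (Nat.cast_nonneg _).trans (hN (Classical.arbitrary σ))
  have : LipschitzWith ⟨(ε + (1 + N) + (2 * b + 2)) * 2, by positivity⟩ (gSb ε b K) := by
    refine LipschitzWith.of_dist_le_mul fun x y => ?_
    rw [Real.dist_eq, dist_eq_norm]
    exact gSb_lip hε hb hN x y
  exact this.continuous

theorem win_gSb {A : ℕ} (hA : 2 ≤ A) {K : σ → Fin 1 → ℕ}
    (hK : ∀ k : ℕ, (∃ a, K a 0 = k) ↔ k + 1 < A) {R : ℝ} (hR1 : R ≤ 1)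
    (hR : ∀ x : ℝ, |x| < R → ∀ k < A,
      |Real.sin x| < Real.cos (Real.arctan k) ^ 2 * (Real.cos x - k * Real.sin x) / 4)
    {ε : ℝ} (hε : 0 < ε) (hε1 : ε ≤ 1 / 8) {b : ℝ} (hb : (A : ℝ) ≤ b) :
    Win (gSb ε b K) (range (cen (A : ℤ))) (4 * ε) R := by
  have h := win_gS hA hK hR1 hR hε hε1
  have hb0 : 0 ≤ b := (Nat.cast_nonneg A).trans hb
  refine ⟨gSb_cont hε.le hb0 K, gSb_per _ _ _, fun θ h0 => h.near θ (by rwa [gSb_re] at h0), ?_⟩
  rintro c ⟨j, rfl⟩ θ hθ
  refine (h.loc _ ⟨j, rfl⟩ θ hθ).congr ?_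
  have h1 : ∀ᶠ θ' in 𝓝 θ, |θ' - cen A j| < R := by
    have : ContinuousAt (fun θ' => |θ' - cen A j|) θ := by fun_prop
    exact this.eventually (gt_mem_nhds hθ)
  filter_upwards [h1] with θ' h2
  apply Complex.ext
  · rw [gSb_re]
  · rw [gS, FS1_im]
    show turn _ = turnb b _
    refine (turnb_eq ?_).symm
    exact (window_slope hA hR1 hR h2).trans (mul_le_mul_of_nonneg_right hb (abs_nonneg _))

end

end Vale.Agent.P268.T
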