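import Vale.Agent.P268.T.H500.P1
import Vale.Agent.P268.T.H500.Turnb
import Vale.Agent.P268.T.H69.Idx

/-!
# P268, topological half, route V: planar loop families from the profiles to the rays, tools
-/

set_option linter.unusedSectionVars false

namespace Vale.Agent.P268.T.H500

open Set Filter Topology
open RV (eI)

theorem eI_eq (x : ℝ) : eI x = ⟨Real.cos x, Real.sin x⟩ := by
  rw [eI, mul_comm, Complex.exp_mul_I, ← Complex.ofReal_cos, ← Complex.ofReal_sin,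
    Complex.mk_eq_add_mul_I]

theorem eI_re (x : ℝ) : (eI x).re = Real.cos x := by rw [eI_eq]

theorem eI_im (x : ℝ) : (eI x).im = Real.sin x := by rw [eI_eq]

theorem eI_ne_zero (x : ℝ) : eI x ≠ 0 := Complex.exp_ne_zero _

theorem norm_eI (x : ℝ) : ‖eI x‖ = 1 := by
  rw [eI, mul_comm]
  exact Complex.norm_exp_ofReal_mul_I x

theorem eI_add_int (x : ℝ) (n : ℤ) : eI (x + 2 * Real.pi * n) = eI x := by
  have h : x + 2 * Real.pi * n = x + n * (2 * Real.pi) := by ring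
  rw [eI_eq, eI_eq, h, Real.cos_add_int_mul_two_pi, Real.sin_add_int_mul_two_pi]

theorem norm_eI_sub_le (x y : ℝ) : ‖eI x - eI y‖ ≤ 2 * |x - y| := by
  rw [eI_eq, eI_eq]
  exact norm_circle_sub_le x y

theorem continuous_eI : Continuous eI := by
  unfold eI
  fun_prop

variable {T : Type*} [TopologicalSpace T]

/-- Phases with positive speed turn. -/
theorem argTurn_eI {s : Set T} {V : T → ℝ → ℝ} {t₀ : T} {θ₀ : ℝ}
    (hc : ContinuousWithinAt (fun p : T × ℝ => V p.1 p.2) (s ×ˢ univ) (t₀, θ₀))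
    {μ Λ δ : ℝ} (hμ : 0 < μ) (hδ : 0 < δ)
    (h : ∀ᶠ t in 𝓝[s] t₀, ∀ x y, |x - θ₀| < δ → |y - θ₀| < δ → x ≤ y →
      μ * (y - x) ≤ V t y - V t x ∧ V t y - V t x ≤ Λ * (y - x)) :
    ArgTurn s (fun t θ => eI (V t θ)) t₀ θ₀ := by
  obtain ⟨δ₁, hδ₁, hs⟩ := strict_incr (Real.hasStrictDerivAt_sin 0) (η := 1 / 2) (by norm_num)
  rw [ContinuousWithinAt, nhdsWithin_prod_eq, nhdsWithin_univ] at hc
  have h1 := hc.eventually (Metric.ball_mem_nhds _ hδ₁)
  obtain ⟨pa, ha, pb, hb, hab⟩ := eventually_prod_iff.mp h1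
  obtain ⟨δ₂, hδ₂, hball⟩ := Metric.eventually_nhds_iff.mp hb
  refine ⟨1 / 2 * μ, by positivity, 2 * Λ, min δ δ₂, lt_min hδ hδ₂, ?_⟩
  filter_upwards [h, ha] with t ht hta x y hx hy hxy
  obtain ⟨i1, i2⟩ := ht x y (hx.trans_le (min_le_left _ _)) (hy.trans_le (min_le_left _ _)) hxy
  have b1 := hab hta (hball (y := x) (by rw [Real.dist_eq]; exact hx.trans_le (min_le_right _ _)))
  have b2 := hab hta (hball (y := y) (by rw [Real.dist_eq]; exact hy.trans_le (min_le_right _ _)))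
  rw [Real.dist_eq] at b1 b2
  simp only at b1 b2
  have hd : 0 ≤ μ * (y - x) := mul_nonneg hμ.le (by linarith)
  have hle : V t x ≤ V t y := by linarith
  constructor
  · refine (norm_eI_sub_le _ _).trans ?_
    rw [abs_of_nonneg (by linarith)]
    linarith
  · rw [inner_turn, Complex.sub_im, Complex.sub_re, eI_re, eI_re, eI_re, eI_im, eI_im, eI_im]
    have h3 := (hs (V t x - V t₀ θ₀) (V t y - V t₀ θ₀) (by rwa [sub_zero])
      (by rwa [sub_zero]) (by linarith)).1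
    rw [Real.cos_zero] at h3
    have e1 : (Real.sin (V t y) - Real.sin (V t x)) * Real.cos (V t₀ θ₀) -
        (Real.cos (V t y) - Real.cos (V t x)) * Real.sin (V t₀ θ₀) =
        Real.sin (V t y - V t₀ θ₀) - Real.sin (V t x - V t₀ θ₀) := by
      rw [Real.sin_sub, Real.sin_sub]; ring
    rw [e1]
    linarith

theorem turnFam_comp {s : Set T} {f : T → ℝ → ℂ} (hf : TurnFam s f) {m L : ℝ} {Ψ : ℝ → ℝ}
    (h : IncBi m L Ψ) (hp : ∀ θ, Ψ (θ + 2 * Real.pi) = Ψ θ + 2 * Real.pi) :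
    TurnFam s (fun t θ => f t (Ψ θ)) := by
  refine ⟨?_, ?_, ?_, ?_⟩
  · refine hf.cont.comp (f := fun p : T × ℝ => (p.1, Ψ p.2)) ?_ fun p hp => ⟨hp.1, mem_univ _⟩
    exact (continuous_fst.prodMk (h.continuous.comp continuous_snd)).continuousOn
  · obtain ⟨M, hM⟩ := hf.bd
    exact ⟨M, fun t ht θ => hM t ht _⟩
  · intro t ht θ
    show f t (Ψ (θ + 2 * Real.pi)) = _
    rw [hp]
    exact hf.per t ht _
  · intro t ht θ h0
    obtain ⟨h1, κ, hκ, L', δ, hδ, hev⟩ := hf.turn t ht _ h0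
    refine ⟨h1, κ * m, mul_pos hκ h.1, max L' 0 * L, δ / L, div_pos hδ h.L_nonneg, ?_⟩
    filter_upwards [hev] with t' ht' x y hx hy hxy
    have hb : ∀ x, |x - θ| < δ / L → |Ψ x - Ψ θ| < δ := fun x hx => by
      refine (h.abs_le x θ).2.trans_lt ?_
      rw [lt_div_iff₀ h.L_nonneg] at hx
      linarith
    obtain ⟨a1, a2⟩ := ht' (Ψ x) (Ψ y) (hb x hx) (hb y hy) (h.mono' hxy)
    obtain ⟨i1, i2⟩ := h.2 x y hxy
    have hd : 0 ≤ Ψ y - Ψ x := by linarith [h.mono' hxy]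
    constructor
    · calc _ ≤ L' * (Ψ y - Ψ x) := a1
        _ ≤ max L' 0 * (Ψ y - Ψ x) := mul_le_mul_of_nonneg_right (le_max_left _ _) hd
        _ ≤ max L' 0 * (L * (y - x)) := mul_le_mul_of_nonneg_left i2 (le_max_right _ _)
        _ = _ := by ring
    · calc κ * m * (y - x) = κ * (m * (y - x)) := by ring
        _ ≤ κ * (Ψ y - Ψ x) := mul_le_mul_of_nonneg_left i1 hκ.le
        _ ≤ _ := a2

end Vale.Agent.P268.T.H500
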