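import Vale.Agent.P268.T.H500.Zed

/-!
# P268, topological half: inverse parameter change
-/

set_option linter.unusedSectionVars false

namespace Vale.Agent.P268.T

open Set Filter Topology

theorem IncBi.inverse {m L : ℝ} {Φ : ℝ → ℝ} (h : IncBi m L Φ) :
    ∃ Ψ : ℝ → ℝ, (∀ x, Ψ (Φ x) = x) ∧ (∀ y, Φ (Ψ y) = y) ∧ IncBi (1 / L) (1 / m) Ψ := by
  have hm := h.1
  have hL := h.L_nonneg
  have hsurj : Function.Surjective Φ := by
    refine h.continuous.surjective ?_ ?_
    · refine tendsto_atTop_mono' (f₁ := fun x => m * x + Φ 0) atTop ?_ ?_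
      · filter_upwards [eventually_ge_atTop (0 : ℝ)] with x hx
        have := (h.2 0 x hx).1
        linarith
      · exact tendsto_atTop_add_const_right _ _ (tendsto_id.const_mul_atTop hm)
    · refine tendsto_atBot_mono' (f₁ := fun x => m * x + Φ 0) atBot ?_ ?_
      · filter_upwards [eventually_le_atBot (0 : ℝ)] with x hx
        have := (h.2 x 0 hx).1
        linarith
      · exact tendsto_atBot_add_const_right _ _ (tendsto_id.const_mul_atBot hm)
  choose Ψ hΨ using hsurj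
  have hinj : Function.Injective Φ := by
    intro x y hxy
    rcases lt_trichotomy x y with h1 | h1 | h1
    · exact absurd (h.lt h1) (by rw [hxy]; exact lt_irrefl _)
    · exact h1
    · exact absurd (h.lt h1) (by rw [hxy]; exact lt_irrefl _)
  refine ⟨Ψ, fun x => hinj (hΨ _), hΨ, by positivity, fun x y hxy => ?_⟩
  have hle : Ψ x ≤ Ψ y := by
    by_contra hcon
    push Not at hcon
    have := h.lt hcon
    rw [hΨ, hΨ] at this
    linarith
  obtain ⟨h1, h2⟩ := h.2 _ _ hle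
  rw [hΨ, hΨ] at h1 h2
  constructor
  · rw [one_div, inv_mul_le_iff₀ hL]
    exact h2
  · rw [one_div, ← div_eq_inv_mul, le_div_iff₀ hm]
    linarith

theorem exists_psi {A : ℤ} (hA : 2 ≤ A) : ∃ (m L : ℝ) (Ψ : ℝ → ℝ), IncBi m L Ψ ∧
    (∀ θ, Ψ (θ + 2 * Real.pi) = Ψ θ + 2 * Real.pi) ∧
    ∀ j : ℤ, Ψ (cen A j) = 2 * Real.pi * j / A := by
  obtain ⟨m, L, Φ, hΦ, hp, hc⟩ := exists_param hA
  obtain ⟨Ψ, h1, h2, h3⟩ := hΦ.inverse
  refine ⟨_, _, Ψ, h3, fun θ => ?_, fun j => ?_⟩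
  · have : θ + 2 * Real.pi = Φ (Ψ θ + 2 * Real.pi) := by rw [hp, h2]
    rw [this, h1]
  · rw [← hc, h1]

/-- The change of parameter which moves the rays `cen A j` to `2πj/A`. -/
noncomputable def psiT (A : ℤ) : ℝ → ℝ :=
  if h : 2 ≤ A then (exists_psi h).choose_spec.choose_spec.choose else id

theorem psiT_incBi {A : ℤ} (hA : 2 ≤ A) : ∃ m L : ℝ, IncBi m L (psiT A) := by
  have h := (exists_psi hA).choose_spec.choose_spec.choose_spec.1
  rw [psiT, dif_pos hA]
  exact ⟨_, _, h⟩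

theorem psiT_per {A : ℤ} (hA : 2 ≤ A) (θ : ℝ) :
    psiT A (θ + 2 * Real.pi) = psiT A θ + 2 * Real.pi := by
  have h := (exists_psi hA).choose_spec.choose_spec.choose_spec.2.1
  rw [psiT, dif_pos hA]
  exact h θ

theorem psiT_cen {A : ℤ} (hA : 2 ≤ A) (j : ℤ) : psiT A (cen A j) = 2 * Real.pi * j / A := by
  have h := (exists_psi hA).choose_spec.choose_spec.choose_spec.2.2
  rw [psiT, dif_pos hA]
  exact h j

end Vale.Agent.P268.T
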