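import Vale.Agent.P268.T.H500.PL

/-!
# P268, topological half: the windows of `z^A`
-/

set_option linter.unusedSectionVars false

namespace Vale.Agent.P268.T

open Set Filter Topology

/-- Local increments of a strictly differentiable real function. -/
theorem strict_incr {g : ℝ → ℝ} {g' θ₀ : ℝ} (h : HasStrictDerivAt g g' θ₀) {η : ℝ} (hη : 0 < η) :
    ∃ δ : ℝ, 0 < δ ∧ ∀ x y : ℝ, |x - θ₀| < δ → |y - θ₀| < δ → x ≤ y →
      (g' - η) * (y - x) ≤ g y - g x ∧ g y - g x ≤ (g' + η) * (y - x) := by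
  have h4 := h.hasStrictFDerivAt.isLittleO.def hη
  rw [nhds_prod_eq] at h4
  obtain ⟨pa, ha, pb, hb, hsub⟩ := eventually_prod_iff.mp h4
  obtain ⟨δ, hδ, hball⟩ := Metric.eventually_nhds_iff.mp (ha.and hb)
  refine ⟨δ, hδ, fun x y hx hy hxy => ?_⟩
  have h5 := hsub (hball (y := y) (by rwa [Real.dist_eq])).1
    (hball (y := x) (by rwa [Real.dist_eq])).2
  simp only [ContinuousLinearMap.toSpanSingleton_apply, smul_eq_mul, Real.norm_eq_abs] at h5
  rw [abs_of_nonneg (by linarith : 0 ≤ y - x), abs_le] at h5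
  constructor
  · linarith [h5.1]
  · linarith [h5.2]

theorem strict_lip {g : ℝ → ℝ} {g' θ₀ : ℝ} (h : HasStrictDerivAt g g' θ₀) :
    ∃ δ : ℝ, 0 < δ ∧ ∀ x y : ℝ, |x - θ₀| < δ → |y - θ₀| < δ → x ≤ y →
      |g y - g x| ≤ (|g'| + 1) * (y - x) := by
  obtain ⟨δ, hδ, h1⟩ := strict_incr h one_pos
  refine ⟨δ, hδ, fun x y hx hy hxy => ?_⟩
  obtain ⟨a1, a2⟩ := h1 x y hx hy hxy
  have hd : 0 ≤ y - x := by linarith
  have b1 := mul_le_mul_of_nonneg_right (le_abs_self g') hd
  have b2 := mul_le_mul_of_nonneg_right (neg_abs_le g') hd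
  exact abs_le.mpr ⟨by linarith, by linarith⟩

/-- Local form of a window from derivatives. -/
theorem LocWin.of_deriv {f : ℝ → ℂ} {c θ₀ I' : ℝ}
    (s1 : c < θ₀ → 0 < (f θ₀).im) (s2 : θ₀ < c → (f θ₀).im < 0)
    (s3 : θ₀ = c → (f θ₀).im = 0 ∧ 0 < (f θ₀).re)
    (hI : HasStrictDerivAt (fun θ => (f θ).im) I' θ₀) (hI' : 0 < I')
    (hp : c < θ₀ → ∃ R', R' < 0 ∧ HasStrictDerivAt (fun θ => (f θ).re) R' θ₀)
    (hn : θ₀ < c → ∃ R', 0 < R' ∧ HasStrictDerivAt (fun θ => (f θ).re) R' θ₀)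
    (h0 : θ₀ = c → ∃ L : ℝ, ∃ δ : ℝ, 0 < δ ∧ ∀ x y : ℝ, |x - θ₀| < δ → |y - θ₀| < δ → x ≤ y →
      |(f y).re - (f x).re| ≤ L * (y - x)) : LocWin f c θ₀ := by
  obtain ⟨δ₁, hδ₁, h1⟩ := strict_incr hI (half_pos hI')
  refine ⟨⟨s1, s2, s3⟩, ?_⟩
  have hnorm : ∀ z : ℂ, ‖z‖ ≤ |z.re| + |z.im| := Complex.norm_le_abs_re_add_abs_im
  rcases lt_trichotomy c θ₀ with h | h | h
  · obtain ⟨R', hR', hR⟩ := hp h
    obtain ⟨δ₂, hδ₂, h2⟩ := strict_incr hR (η := -R' / 2) (by linarith)
    refine ⟨min (I' / 2) (-R' / 2), lt_min (by linarith) (by linarith),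
      2 * I' - 2 * R', min δ₁ δ₂, lt_min hδ₁ hδ₂, fun x y hx hy hxy => ?_⟩
    obtain ⟨a1, a2⟩ := h1 x y (hx.trans_le (min_le_left _ _)) (hy.trans_le (min_le_left _ _)) hxy
    obtain ⟨b1, b2⟩ := h2 x y (hx.trans_le (min_le_right _ _)) (hy.trans_le (min_le_right _ _)) hxy
    have hd : 0 ≤ y - x := by linarith
    have m1 := mul_le_mul_of_nonneg_right (min_le_left (I' / 2) (-R' / 2)) hd
    have m2 := mul_le_mul_of_nonneg_right (min_le_right (I' / 2) (-R' / 2)) hd
    have p1 : 0 ≤ I' * (y - x) := mul_nonneg hI'.le hd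
    have p2 : 0 ≤ -R' * (y - x) := mul_nonneg (by linarith) hd
    refine ⟨?_, by linarith, fun _ => by linarith, fun h' => absurd h' (not_lt.mpr h.le)⟩
    refine (hnorm _).trans ?_
    rw [Complex.sub_re, Complex.sub_im]
    have q1 : |(f y).im - (f x).im| ≤ 2 * I' * (y - x) := abs_le.mpr ⟨by linarith, by linarith⟩
    have q2 : |(f y).re - (f x).re| ≤ -2 * R' * (y - x) := abs_le.mpr ⟨by linarith, by linarith⟩
    linarith
  · obtain ⟨L, δ₂, hδ₂, h2⟩ := h0 h.symm
    refine ⟨I' / 2, by linarith, 2 * I' + L, min δ₁ δ₂, lt_min hδ₁ hδ₂, fun x y hx hy hxy => ?_⟩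
    obtain ⟨a1, a2⟩ := h1 x y (hx.trans_le (min_le_left _ _)) (hy.trans_le (min_le_left _ _)) hxy
    have b1 := h2 x y (hx.trans_le (min_le_right _ _)) (hy.trans_le (min_le_right _ _)) hxy
    have hd : 0 ≤ y - x := by linarith
    have p1 : 0 ≤ I' * (y - x) := mul_nonneg hI'.le hd
    refine ⟨?_, by linarith, fun h' => absurd h' (by rw [h]; exact lt_irrefl _),
      fun h' => absurd h' (by rw [h]; exact lt_irrefl _)⟩
    refine (hnorm _).trans ?_
    rw [Complex.sub_re, Complex.sub_im]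
    have q1 : |(f y).im - (f x).im| ≤ 2 * I' * (y - x) := abs_le.mpr ⟨by linarith, by linarith⟩
    linarith
  · obtain ⟨R', hR', hR⟩ := hn h
    obtain ⟨δ₂, hδ₂, h2⟩ := strict_incr hR (η := R' / 2) (by linarith)
    refine ⟨min (I' / 2) (R' / 2), lt_min (by linarith) (by linarith),
      2 * I' + 2 * R', min δ₁ δ₂, lt_min hδ₁ hδ₂, fun x y hx hy hxy => ?_⟩
    obtain ⟨a1, a2⟩ := h1 x y (hx.trans_le (min_le_left _ _)) (hy.trans_le (min_le_left _ _)) hxy
    obtain ⟨b1, b2⟩ := h2 x y (hx.trans_le (min_le_right _ _)) (hy.trans_le (min_le_right _ _)) hxy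
    have hd : 0 ≤ y - x := by linarith
    have m1 := mul_le_mul_of_nonneg_right (min_le_left (I' / 2) (R' / 2)) hd
    have m2 := mul_le_mul_of_nonneg_right (min_le_right (I' / 2) (R' / 2)) hd
    have p1 : 0 ≤ I' * (y - x) := mul_nonneg hI'.le hd
    have p2 : 0 ≤ R' * (y - x) := mul_nonneg (by linarith) hd
    refine ⟨?_, by linarith, fun h' => absurd h' (not_lt.mpr h.le), fun _ => by linarith⟩
    refine (hnorm _).trans ?_
    rw [Complex.sub_re, Complex.sub_im]
    have q1 : |(f y).im - (f x).im| ≤ 2 * I' * (y - x) := abs_le.mpr ⟨by linarith, by linarith⟩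
    have q2 : |(f y).re - (f x).re| ≤ 2 * R' * (y - x) := abs_le.mpr ⟨by linarith, by linarith⟩
    linarith

/-! ### Angles -/

theorem exists_int_near (x : ℝ) : ∃ n : ℤ, |x - 2 * Real.pi * n| ≤ Real.pi := by
  have hp := Real.pi_pos
  refine ⟨round (x / (2 * Real.pi)), ?_⟩
  have h1 := abs_sub_round (x / (2 * Real.pi))
  have h2 : x - 2 * Real.pi * (round (x / (2 * Real.pi)) : ℤ) =
      (2 * Real.pi) * (x / (2 * Real.pi) - round (x / (2 * Real.pi))) := by
    field_simp
  rw [h2, abs_mul, abs_of_pos (by positivity)]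
  calc 2 * Real.pi * |x / (2 * Real.pi) - round (x / (2 * Real.pi))|
      ≤ 2 * Real.pi * (1 / 2) := mul_le_mul_of_nonneg_left h1 (by positivity)
    _ = Real.pi := by ring

theorem cos_sub_int (x : ℝ) (n : ℤ) : Real.cos (x - 2 * Real.pi * n) = Real.cos x := by
  rw [mul_comm (2 * Real.pi) (n : ℝ)]
  exact Real.cos_sub_int_mul_two_pi x n

theorem sin_sub_int (x : ℝ) (n : ℤ) : Real.sin (x - 2 * Real.pi * n) = Real.sin x := by
  rw [mul_comm (2 * Real.pi) (n : ℝ)]
  exact Real.sin_sub_int_mul_two_pi x n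

/-- The cosine is large only near multiples of `2π`. -/
theorem near_of_cos {x δ : ℝ} (hδ0 : 0 ≤ δ) (h : Real.cos δ ≤ Real.cos x) :
    ∃ n : ℤ, |x - 2 * Real.pi * n| ≤ δ := by
  obtain ⟨n, hn⟩ := exists_int_near x
  refine ⟨n, ?_⟩
  by_contra hcon
  push Not at hcon
  have h1 : Real.cos (|x - 2 * Real.pi * n|) < Real.cos δ :=
    Real.cos_lt_cos_of_nonneg_of_le_pi hδ0 hn hcon
  rw [Real.cos_abs, cos_sub_int] at h1
  linarith

/-- The sine is small only near multiples of `2π`, if the cosine is positive. -/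
theorem near_of_sin {x ε : ℝ} (hc : 0 < Real.cos x) (h : |Real.sin x| ≤ 2 * ε) :
    ∃ n : ℤ, |x - 2 * Real.pi * n| ≤ Real.pi * ε := by
  obtain ⟨n, hn⟩ := exists_int_near x
  refine ⟨n, ?_⟩
  have hp := Real.pi_pos
  set y := x - 2 * Real.pi * n with hy
  have h1 : 0 < Real.cos |y| := by rw [Real.cos_abs, hy, cos_sub_int]; exact hc
  have h2 : |y| < Real.pi / 2 := by
    by_contra hcon
    push Not at hcon
    have := Real.cos_nonpos_of_pi_div_two_le_of_le hcon (by linarith)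
    linarith
  have h3 := Real.mul_le_sin (abs_nonneg y) h2.le
  have h4 : Real.sin |y| ≤ |Real.sin x| := by
    rcases abs_cases y with ⟨h5, _⟩ | ⟨h5, _⟩
    · rw [h5, hy, sin_sub_int]; exact le_abs_self _
    · rw [h5, Real.sin_neg, hy, sin_sub_int]; exact neg_le_abs _
  have h5 : 2 / Real.pi * |y| ≤ 2 * ε := by linarith
  rw [div_mul_eq_mul_div, div_le_iff₀ hp] at h5
  linarith

/-! ### The windows of `z^A` -/

/-- The equidistant centres. -/
def cenE (A : ℤ) : Set ℝ := range fun j : ℤ => 2 * Real.pi * j / A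

/-- The function `e^{iAθ} - c`. -/
noncomputable def expA (A : ℤ) (c θ : ℝ) : ℂ := ⟨Real.cos (A * θ) - c, Real.sin (A * θ)⟩

theorem expA_per (A : ℤ) (c : ℝ) : Function.Periodic (expA A c) (2 * Real.pi) := by
  intro θ
  have h1 : (A : ℝ) * (θ + 2 * Real.pi) = A * θ + A * (2 * Real.pi) := by ring
  rw [expA, expA, h1, Real.cos_add_int_mul_two_pi, Real.sin_add_int_mul_two_pi]

theorem continuous_mk {f g : ℝ → ℝ} (hf : Continuous f) (hg : Continuous g) :
    Continuous fun θ => (⟨f θ, g θ⟩ : ℂ) := by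
  have : (fun θ => (⟨f θ, g θ⟩ : ℂ)) = fun θ => (f θ : ℂ) + (g θ : ℂ) * Complex.I := by
    funext θ
    exact Complex.mk_eq_add_mul_I _ _
  rw [this]
  fun_prop

theorem expA_cont (A : ℤ) (c : ℝ) : Continuous (expA A c) :=
  continuous_mk (by fun_prop) (by fun_prop)

theorem strict_cosA (A : ℤ) (θ : ℝ) :
    HasStrictDerivAt (fun θ : ℝ => Real.cos (A * θ)) (-(A * Real.sin (A * θ))) θ := by
  have h1 : HasStrictDerivAt (fun θ : ℝ => (A : ℝ) * θ) ((A : ℝ) * 1) θ :=
    (hasStrictDerivAt_id θ).const_mul (A : ℝ)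
  have h2 := h1.cos
  rw [mul_one] at h2
  convert h2 using 1
  ring

theorem strict_sinA (A : ℤ) (θ : ℝ) :
    HasStrictDerivAt (fun θ : ℝ => Real.sin (A * θ)) (A * Real.cos (A * θ)) θ := by
  have h1 : HasStrictDerivAt (fun θ : ℝ => (A : ℝ) * θ) ((A : ℝ) * 1) θ :=
    (hasStrictDerivAt_id θ).const_mul (A : ℝ)
  have h2 := h1.sin
  rw [mul_one] at h2
  convert h2 using 1
  ring

theorem win_expA {A : ℤ} (hA : 0 < A) {r : ℝ} (hr0 : 0 < r) (hr : r ≤ Real.pi) {ω : ℝ}
    (hω : A * ω ≤ Real.pi / 2) : Win (expA A (Real.cos r)) (cenE A) (2 * r / A) ω := by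
  have hp := Real.pi_pos
  have hA' : (0 : ℝ) < A := by exact_mod_cast hA
  refine ⟨expA_cont _ _, expA_per _ _, fun θ h0 => ?_, ?_⟩
  · have h1 : Real.cos r ≤ Real.cos (A * θ) := by
      have : (expA A (Real.cos r) θ).re = Real.cos (A * θ) - Real.cos r := rfl
      linarith
    obtain ⟨j, hj⟩ := near_of_cos hr0.le h1
    refine ⟨2 * Real.pi * j / A, ⟨j, rfl⟩, ?_⟩
    have h2 : θ - 2 * Real.pi * j / A = (A * θ - 2 * Real.pi * j) / A := by field_simp
    rw [h2, abs_div, abs_of_pos hA']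
    exact div_lt_div_of_pos_right (by linarith) hA'
  · rintro c ⟨j, rfl⟩ θ₀ hθ
    set x : ℝ := A * θ₀ - 2 * Real.pi * j with hx
    have h2 : θ₀ - 2 * Real.pi * j / A = x / A := by rw [hx]; field_simp
    simp only at hθ ⊢
    rw [h2, abs_div, abs_of_pos hA', div_lt_iff₀ hA'] at hθ
    have hx2 : |x| < Real.pi / 2 := by linarith
    obtain ⟨x1, x2⟩ := abs_lt.mp hx2
    have hcos : Real.cos (A * θ₀) = Real.cos x := by rw [hx, cos_sub_int]
    have hsin : Real.sin (A * θ₀) = Real.sin x := by rw [hx, sin_sub_int]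
    have c1 : 2 * Real.pi * j / A < θ₀ ↔ 0 < x := by
      constructor
      · intro h
        have : 0 < x / A := by linarith
        exact (div_pos_iff_of_pos_right hA').mp this
      · intro h
        have : 0 < x / A := div_pos h hA'
        linarith
    have c2 : θ₀ < 2 * Real.pi * j / A ↔ x < 0 := by
      constructor
      · intro h
        have h3 : x / A < 0 := by linarith
        rw [div_lt_iff₀ hA', zero_mul] at h3
        exact h3
      · intro h
        have : x / A < 0 := div_neg_of_neg_of_pos h hA'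
        linarith
    have hcpos : 0 < Real.cos x := Real.cos_pos_of_mem_Ioo ⟨x1, x2⟩
    refine LocWin.of_deriv (I' := A * Real.cos (A * θ₀)) (fun h => ?_) (fun h => ?_) (fun h => ?_)
      (strict_sinA A θ₀) (by rw [hcos]; positivity) (fun h => ?_) (fun h => ?_) (fun h => ?_)
    · show 0 < Real.sin (A * θ₀)
      rw [hsin]
      exact Real.sin_pos_of_pos_of_lt_pi (c1.mp h) (by linarith)
    · show Real.sin (A * θ₀) < 0
      rw [hsin]
      exact Real.sin_neg_of_neg_of_neg_pi_lt (c2.mp h) (by linarith)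
    · have hx0 : x = 0 := by
        rw [hx, h]
        field_simp
        ring
      constructor
      · show Real.sin (A * θ₀) = 0
        rw [hsin, hx0, Real.sin_zero]
      · show 0 < Real.cos (A * θ₀) - Real.cos r
        rw [hcos, hx0]
        have := Real.cos_lt_cos_of_nonneg_of_le_pi le_rfl hr hr0
        linarith
    · refine ⟨-(A * Real.sin (A * θ₀)), ?_, (strict_cosA A θ₀).sub_const _⟩
      rw [hsin]
      have := Real.sin_pos_of_pos_of_lt_pi (c1.mp h) (by linarith)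
      have := mul_pos hA' this
      linarith
    · refine ⟨-(A * Real.sin (A * θ₀)), ?_, (strict_cosA A θ₀).sub_const _⟩
      rw [hsin]
      have := Real.sin_neg_of_neg_of_neg_pi_lt (c2.mp h) (by linarith)
      have := mul_pos hA' (neg_pos.mpr this)
      linarith
    · obtain ⟨δ, hδ, h1⟩ := strict_lip ((strict_cosA A θ₀).sub_const (Real.cos r))
      exact ⟨|-(A * Real.sin (A * θ₀))| + 1, δ, hδ, fun x y hx hy hxy => h1 x y hx hy hxy⟩

/-- Shrinking the windows of `z^A`. -/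
theorem turnFam_expA {A : ℤ} (hA : 0 < A) {c : ℝ} (hc0 : 0 ≤ c) (hc : c < 1) :
    TurnFam (Icc (0 : ℝ) 1) (fun t θ => expA A (t * c) θ) := by
  have hA' : (0 : ℝ) < A := by exact_mod_cast hA
  have hmk : ∀ a b : ℝ, ‖(⟨a, b⟩ : ℂ)‖ ≤ |a| + |b| := fun a b =>
    Complex.norm_le_abs_re_add_abs_im ⟨a, b⟩
  refine ⟨?_, ?_, fun t _ => expA_per _ _, fun t₀ ht₀ θ₀ h0 => ⟨?_, ?_⟩⟩
  · refine Continuous.continuousOn ?_
    have : (fun p : ℝ × ℝ => expA A (p.1 * c) p.2) = fun p : ℝ × ℝ =>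
        ((Real.cos (A * p.2) - p.1 * c : ℝ) : ℂ) + ((Real.sin (A * p.2) : ℝ) : ℂ) * Complex.I := by
      funext p
      exact Complex.mk_eq_add_mul_I _ _
    rw [this]
    fun_prop
  · refine ⟨3, fun t ht θ => (hmk _ _).trans ?_⟩
    have h1 := Real.abs_cos_le_one (A * θ)
    have h2 := Real.abs_sin_le_one (A * θ)
    have h3 : |Real.cos (A * θ) - t * c| ≤ |Real.cos (A * θ)| + |t * c| := abs_sub _ _
    have h4 : |t * c| ≤ 1 := by
      rw [abs_of_nonneg (mul_nonneg ht.1 hc0)]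
      calc t * c ≤ 1 * 1 := mul_le_mul ht.2 hc.le hc0 zero_le_one
        _ = 1 := one_mul 1
    linarith
  · intro h
    have h1 : Real.cos (A * θ₀) - t₀ * c = 0 := congrArg Complex.re h
    have h2 : Real.sin (A * θ₀) = 0 := congrArg Complex.im h
    have h3 := Real.sin_sq_add_cos_sq (A * θ₀)
    have h4 : Real.cos (A * θ₀) = t₀ * c := by linarith
    have h5 : t₀ * c < 1 := by
      calc t₀ * c ≤ 1 * c := mul_le_mul_of_nonneg_right ht₀.2 hc0
        _ < 1 := by linarith
    have h6 : 0 ≤ t₀ * c := mul_nonneg ht₀.1 hc0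
    rw [h2, h4] at h3
    nlinarith
  · -- the increments do not depend on `t`
    set C := Real.cos (A * θ₀) with hC
    set S := Real.sin (A * θ₀) with hS
    have hCS : S ^ 2 + C ^ 2 = 1 := Real.sin_sq_add_cos_sq (A * θ₀)
    -- combination
    have h1 : HasStrictDerivAt (fun θ : ℝ => Real.sin (A * θ) * (C - t₀ * c) -
        Real.cos (A * θ) * S) (A * C * (C - t₀ * c) - -(A * S) * S) θ₀ :=
      ((strict_sinA A θ₀).mul_const _).sub ((strict_cosA A θ₀).mul_const _)
    have h2 : A * C * (C - t₀ * c) - -(A * S) * S = A * (1 - t₀ * c * C) := by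
      have : C ^ 2 = 1 - S ^ 2 := by linarith
      linear_combination (A : ℝ) * this
    rw [h2] at h1
    have h3 : 0 < A * (1 - t₀ * c * C) := by
      refine mul_pos hA' ?_
      have h5 : t₀ * c < 1 := by
        calc t₀ * c ≤ 1 * c := mul_le_mul_of_nonneg_right ht₀.2 hc0
          _ < 1 := by linarith
      have h6 : 0 ≤ t₀ * c := mul_nonneg ht₀.1 hc0
      have h7 : C ≤ 1 := Real.cos_le_one _
      have h8 : t₀ * c * C ≤ t₀ * c * 1 := mul_le_mul_of_nonneg_left h7 h6
      linarith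
    obtain ⟨δ₁, hδ₁, k1⟩ := strict_incr h1 (half_pos h3)
    obtain ⟨δ₂, hδ₂, k2⟩ := strict_lip (strict_cosA A θ₀)
    obtain ⟨δ₃, hδ₃, k3⟩ := strict_lip (strict_sinA A θ₀)
    refine ⟨A * (1 - t₀ * c * C) / 2, by linarith, (|-(A * Real.sin (A * θ₀))| + 1) +
      (|A * Real.cos (A * θ₀)| + 1), min δ₁ (min δ₂ δ₃),
      lt_min hδ₁ (lt_min hδ₂ hδ₃), Eventually.of_forall fun t x y hx hy hxy => ?_⟩
    have hd : 0 ≤ y - x := by linarith
    obtain ⟨a1, a2⟩ := k1 x y (hx.trans_le (min_le_left _ _)) (hy.trans_le (min_le_left _ _)) hxy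
    have b1 := k2 x y (hx.trans_le ((min_le_right _ _).trans (min_le_left _ _)))
      (hy.trans_le ((min_le_right _ _).trans (min_le_left _ _))) hxy
    have c1 := k3 x y (hx.trans_le ((min_le_right _ _).trans (min_le_right _ _)))
      (hy.trans_le ((min_le_right _ _).trans (min_le_right _ _))) hxy
    constructor
    · refine (Complex.norm_le_abs_re_add_abs_im _).trans ?_
      have e1 : (expA A (t * c) y - expA A (t * c) x).re =
          Real.cos (A * y) - Real.cos (A * x) := by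
        show Real.cos (A * y) - t * c - (Real.cos (A * x) - t * c) = _
        ring
      have e2 : (expA A (t * c) y - expA A (t * c) x).im =
          Real.sin (A * y) - Real.sin (A * x) := rfl
      rw [e1, e2, add_mul]
      exact add_le_add b1 c1
    · rw [inner_turn]
      have e1 : (expA A (t * c) y - expA A (t * c) x).re =
          Real.cos (A * y) - Real.cos (A * x) := by
        show Real.cos (A * y) - t * c - (Real.cos (A * x) - t * c) = _
        ring
      have e2 : (expA A (t * c) y - expA A (t * c) x).im =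
          Real.sin (A * y) - Real.sin (A * x) := rfl
      have e3 : (expA A (t₀ * c) θ₀).re = C - t₀ * c := rfl
      have e4 : (expA A (t₀ * c) θ₀).im = S := rfl
      simp only [e1, e2, e3, e4]
      linarith

end Vale.Agent.P268.T
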