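import Vale.Agent.P268.T.H500.P1
import Mathlib.Analysis.SpecialFunctions.Trigonometric.ArctanDeriv
import Mathlib.Analysis.SpecialFunctions.Complex.Arg

/-! `P1_near`: the phase `P1 T (arg z)` is near an integer when `z` is near one of the
directions of the cut-off (the horizontal left ray, or the ray of slope `k`). -/

namespace Vale.Agent.P268.T.H500

theorem arctan_lip (x y : ℝ) : |Real.arctan x - Real.arctan y| ≤ |x - y| := by
  have h : LipschitzWith 1 Real.arctan := by
    refine lipschitzWith_of_nnnorm_deriv_le Real.differentiable_arctan fun z => ?_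
    rw [← NNReal.coe_le_coe, coe_nnnorm, Real.deriv_arctan, Real.norm_eq_abs]
    have h1 : 0 < 1 + z ^ 2 := by positivity
    rw [abs_of_pos (by positivity), NNReal.coe_one, div_le_one h1]
    nlinarith [sq_nonneg z]
  have := h.dist_le_mul x y
  rwa [NNReal.coe_one, one_mul, Real.dist_eq, Real.dist_eq] at this

theorem arg_eq_arctan {z : ℂ} (h : 0 < z.re) : Complex.arg z = Real.arctan (z.im / z.re) := by
  have h1 : |Complex.arg z| < Real.pi / 2 := Complex.abs_arg_lt_pi_div_two_iff.2 (Or.inl h)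
  rw [← Complex.tan_arg z, Real.arctan_tan (abs_lt.1 h1).1 (abs_lt.1 h1).2]

/-- The argument is near the direction of slope `k`. -/
theorem arg_near_slope {z : ℂ} (h : 0 < z.re) {k d : ℝ} (hz : |z.im - k * z.re| ≤ d * z.re) :
    |Complex.arg z - Real.arctan k| ≤ d := by
  rw [arg_eq_arctan h]
  refine (arctan_lip _ _).trans ?_
  have h1 : z.im / z.re - k = (z.im - k * z.re) / z.re := by field_simp
  rw [h1, abs_div, abs_of_pos h, div_le_iff₀ h]
  exact hz

/-- The argument is near `π` or `-π` next to the left horizontal ray. -/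
theorem arg_near_left {z : ℂ} (h : z.re < 0) {d : ℝ} (hz : |z.im| ≤ d * |z.re|) :
    |Complex.arg z - Real.pi| ≤ d ∨ |Complex.arg z - -Real.pi| ≤ d := by
  have h0 : 0 < (-z).re := by rw [Complex.neg_re]; linarith
  have h1 : |Complex.arg (-z)| ≤ d := by
    have := arg_near_slope h0 (k := 0) (d := d) (by
      rw [Complex.neg_im, Complex.neg_re, zero_mul, sub_zero, abs_neg]
      rwa [abs_of_neg h] at hz)
    rwa [Real.arctan_zero, sub_zero] at this
  rcases lt_trichotomy z.im 0 with h2 | h2 | h2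
  · right
    rw [Complex.arg_neg_eq_arg_add_pi_of_im_neg h2] at h1
    rwa [sub_neg_eq_add]
  · left
    have : z.arg = Real.pi := Complex.arg_eq_pi_iff.2 ⟨h, h2⟩
    rw [this, sub_self, abs_zero]
    exact (abs_nonneg _).trans h1
  · left
    rwa [Complex.arg_neg_eq_arg_sub_pi_of_im_pos h2] at h1

theorem P1_near {T : ℕ} (hT : 2 ≤ T) : ∃ d : ℝ, 0 < d ∧ ∀ z : ℂ,
    (z.re < 0 → |z.im| ≤ d * |z.re| → ∃ n : ℤ, |P1 T z.arg - n * T| ≤ 3 / 10) ∧
    (∀ k : ℕ, k + 1 < T → 0 < z.re → |z.im - k * z.re| ≤ d * z.re →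
      |P1 T z.arg - (k + 1)| ≤ 3 / 10) := by
  obtain ⟨L, hL⟩ := P1_lip hT
  have hT' : (2 : ℤ) ≤ (T : ℤ) := by exact_mod_cast hT
  refine ⟨3 / 10 / (|L| + 1), by positivity, fun z => ⟨fun hz h => ?_, fun k hk hz h => ?_⟩⟩
  all_goals
    have hd : ∀ x : ℝ, |x| ≤ 3 / 10 / (|L| + 1) → L * |x| ≤ 3 / 10 := fun x hx => by
      have h1 : 0 < |L| + 1 := by positivity
      rw [le_div_iff₀ h1] at hx
      nlinarith [le_abs_self L, abs_nonneg x, mul_le_mul_of_nonneg_right (le_abs_self L)
        (abs_nonneg x)]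
  · have hpi : P1 T Real.pi = T := by
      have := P1_cen hT ((T : ℤ) - 1)
      rw [cen_last hT'] at this
      rw [this]; push_cast; ring
    have hnpi : P1 T (-Real.pi) = 0 := by
      have := P1_add hT (-Real.pi)
      rw [show -Real.pi + 2 * Real.pi = Real.pi by ring, hpi] at this
      linarith
    rcases arg_near_left hz h with h1 | h1
    · refine ⟨1, ?_⟩
      have := (hL z.arg Real.pi).trans (hd _ h1)
      rw [hpi] at this
      rwa [Int.cast_one, one_mul]
    · refine ⟨0, ?_⟩
      have := (hL z.arg (-Real.pi)).trans (hd _ h1)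
      rw [hnpi] at this
      rwa [Int.cast_zero, zero_mul]
  · have h1 := arg_near_slope hz h
    have h2 := P1_cen hT (k : ℤ)
    rw [cen_of_lt (Int.natCast_nonneg k) (by exact_mod_cast hk)] at h2
    have := (hL z.arg (Real.arctan k)).trans (hd _ h1)
    rw [Int.cast_natCast] at h2
    rwa [h2] at this

end Vale.Agent.P268.T.H500
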