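import Vale.Agent.P268.T.H500.Win

/-!
# P268, topological half: piecewise linear interpolation of a sequence; the centres of `z^A`
-/

set_option linter.unusedSectionVars false

namespace Vale.Agent.P268.T

open Set Filter Topology

/-- Piecewise linear interpolation of a sequence. -/
noncomputable def interp (c : ℤ → ℝ) (s : ℝ) : ℝ :=
  c ⌊s⌋ + Int.fract s * (c (⌊s⌋ + 1) - c ⌊s⌋)

theorem interp_int (c : ℤ → ℝ) (j : ℤ) : interp c j = c j := by
  simp [interp]

theorem interp_add {c : ℤ → ℝ} {A : ℤ} {p : ℝ} (h : ∀ j, c (j + A) = c j + p) (s : ℝ) :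
    interp c (s + A) = interp c s + p := by
  rw [interp, interp, Int.floor_add_intCast, Int.fract_add_intCast, h]
  have : ⌊s⌋ + A + 1 = (⌊s⌋ + 1) + A := by ring
  rw [this, h]
  ring

theorem seq_incr {c : ℤ → ℝ} {m L : ℝ} (h : ∀ j, m ≤ c (j + 1) - c j ∧ c (j + 1) - c j ≤ L)
    {i j : ℤ} (hij : i ≤ j) : m * (j - i) ≤ c j - c i ∧ c j - c i ≤ L * (j - i) := by
  induction j, hij using Int.leInduction with
  | base => simp
  | succ j hj ih =>
    obtain ⟨h1, h2⟩ := h j
    push_cast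
    constructor
    · linarith [ih.1]
    · linarith [ih.2]

theorem interp_incBi {c : ℤ → ℝ} {m L : ℝ} (hm : 0 < m)
    (h : ∀ j, m ≤ c (j + 1) - c j ∧ c (j + 1) - c j ≤ L) : IncBi m L (interp c) := by
  refine ⟨hm, fun x y hxy => ?_⟩
  have hx := Int.self_sub_floor x
  have hy := Int.self_sub_floor y
  have fx0 := Int.fract_nonneg x
  have fx1 := (Int.fract_lt_one x).le
  have fy0 := Int.fract_nonneg y
  have hfl : ⌊x⌋ ≤ ⌊y⌋ := Int.floor_le_floor hxy
  rcases hfl.eq_or_lt with he | hlt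
  · rw [interp, interp, ← he]
    rw [← he] at hy
    obtain ⟨h1, h2⟩ := h ⌊x⌋
    have e1 : c ⌊x⌋ + Int.fract y * (c (⌊x⌋ + 1) - c ⌊x⌋) -
        (c ⌊x⌋ + Int.fract x * (c (⌊x⌋ + 1) - c ⌊x⌋)) =
        (c (⌊x⌋ + 1) - c ⌊x⌋) * (y - x) := by
      rw [← hx, ← hy]; ring
    rw [e1]
    exact ⟨mul_le_mul_of_nonneg_right h1 (by linarith),
      mul_le_mul_of_nonneg_right h2 (by linarith)⟩
  · obtain ⟨s1, s2⟩ := seq_incr h (i := ⌊x⌋ + 1) (j := ⌊y⌋) (by omega)
    obtain ⟨x1, x2⟩ := h ⌊x⌋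
    obtain ⟨y1, y2⟩ := h ⌊y⌋
    push_cast at s1 s2
    have e1 : interp c y - interp c x = Int.fract y * (c (⌊y⌋ + 1) - c ⌊y⌋) +
        (c ⌊y⌋ - c (⌊x⌋ + 1)) + (1 - Int.fract x) * (c (⌊x⌋ + 1) - c ⌊x⌋) := by
      rw [interp, interp]; ring
    have e2 : y - x = Int.fract y + ((⌊y⌋ : ℝ) - (⌊x⌋ + 1)) + (1 - Int.fract x) := by
      rw [← hx, ← hy]; ring
    rw [e1, e2]
    have a1 := mul_le_mul_of_nonneg_left y1 fy0
    have a2 := mul_le_mul_of_nonneg_left y2 fy0
    have b1 := mul_le_mul_of_nonneg_left x1 (by linarith : 0 ≤ 1 - Int.fract x)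
    have b2 := mul_le_mul_of_nonneg_left x2 (by linarith : 0 ≤ 1 - Int.fract x)
    constructor
    · linarith
    · linarith

/-- The angles of the rays in one period. -/
noncomputable def cen0 (A k : ℤ) : ℝ := if k + 1 = A then Real.pi else Real.arctan k

/-- The angles of all rays. -/
noncomputable def cen (A j : ℤ) : ℝ := cen0 A (j % A) + 2 * Real.pi * (j / A : ℤ)

theorem cen_add {A : ℤ} (hA : 2 ≤ A) (j n : ℤ) : cen A (j + n * A) = cen A j + 2 * Real.pi * n := by
  rw [cen, cen, Int.add_mul_emod_self_right, Int.add_mul_ediv_right _ _ (by omega)]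
  push_cast
  ring

theorem cen_of_lt {A k : ℤ} (h0 : 0 ≤ k) (h1 : k + 1 < A) : cen A k = Real.arctan k := by
  rw [cen, Int.emod_eq_of_lt h0 (by omega), Int.ediv_eq_zero_of_lt h0 (by omega), cen0,
    if_neg (by omega)]
  simp

theorem cen_last {A : ℤ} (hA : 2 ≤ A) : cen A (A - 1) = Real.pi := by
  rw [cen, Int.emod_eq_of_lt (by omega) (by omega), Int.ediv_eq_zero_of_lt (by omega) (by omega),
    cen0, if_pos (by omega)]
  simp

theorem cen_A {A : ℤ} (hA : 2 ≤ A) : cen A A = 2 * Real.pi := by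
  have h1 := cen_add hA 0 1
  rw [zero_add, one_mul, cen_of_lt le_rfl (by omega)] at h1
  simpa using h1

theorem cen_incr_pos {A : ℤ} (hA : 2 ≤ A) {k : ℤ} (h0 : 0 ≤ k) (h1 : k < A) :
    0 < cen A (k + 1) - cen A k := by
  have hp := Real.pi_pos
  by_cases h2 : k + 1 < A
  · rw [cen_of_lt h0 h2]
    by_cases h3 : k + 2 < A
    · rw [cen_of_lt (by omega) (by omega)]
      have := Real.arctan_strictMono (a := (k : ℝ)) (b := ((k + 1 : ℤ) : ℝ)) (by push_cast; linarith)
      linarith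
    · have h4 : k + 1 = A - 1 := by omega
      rw [h4, cen_last hA]
      have := Real.arctan_lt_pi_div_two (k : ℝ)
      linarith
  · have h4 : k = A - 1 := by omega
    rw [h4, sub_add_cancel, cen_A hA, cen_last hA]
    linarith

theorem cen_incr {A : ℤ} (hA : 2 ≤ A) : ∃ m L : ℝ, 0 < m ∧
    ∀ j, m ≤ cen A (j + 1) - cen A j ∧ cen A (j + 1) - cen A j ≤ L := by
  have hne : (Finset.Ico (0 : ℤ) A).Nonempty := ⟨0, by simp; omega⟩
  obtain ⟨k₀, hk₀, hmin⟩ := Finset.exists_min_image (Finset.Ico (0 : ℤ) A)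
    (fun k => cen A (k + 1) - cen A k) hne
  obtain ⟨k₁, hk₁, hmax⟩ := Finset.exists_max_image (Finset.Ico (0 : ℤ) A)
    (fun k => cen A (k + 1) - cen A k) hne
  rw [Finset.mem_Ico] at hk₀
  refine ⟨cen A (k₀ + 1) - cen A k₀, cen A (k₁ + 1) - cen A k₁, cen_incr_pos hA hk₀.1 hk₀.2,
    fun j => ?_⟩
  have h1 : j = j % A + (j / A) * A := by
    have := Int.emod_add_mul_ediv j A
    linarith
  have h2 : j % A ∈ Finset.Ico (0 : ℤ) A := by
    rw [Finset.mem_Ico]
    exact ⟨Int.emod_nonneg _ (by omega), Int.emod_lt_of_pos _ (by omega)⟩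
  have h3 : cen A (j + 1) - cen A j = cen A (j % A + 1) - cen A (j % A) := by
    have e1 : cen A (j + 1) = cen A (j % A + 1) + 2 * Real.pi * (j / A : ℤ) := by
      rw [← cen_add hA]
      congr 1
      linarith
    have e2 : cen A j = cen A (j % A) + 2 * Real.pi * (j / A : ℤ) := by
      rw [← cen_add hA, ← h1]
    rw [e1, e2]
    ring
  rw [h3]
  exact ⟨hmin _ h2, hmax _ h2⟩

/-- The change of parameter which moves the equidistant centres to the angles of the rays. -/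
theorem exists_param {A : ℤ} (hA : 2 ≤ A) : ∃ (m L : ℝ) (Φ : ℝ → ℝ), IncBi m L Φ ∧
    (∀ θ, Φ (θ + 2 * Real.pi) = Φ θ + 2 * Real.pi) ∧
    ∀ j : ℤ, Φ (2 * Real.pi * j / A) = cen A j := by
  obtain ⟨m, L, hm, h⟩ := cen_incr hA
  have hA0 : (0 : ℝ) < A := by exact_mod_cast (by omega : 0 < A)
  have hp := Real.pi_pos
  refine ⟨m * (A / (2 * Real.pi)), L * (A / (2 * Real.pi)),
    fun θ => interp (cen A) (A / (2 * Real.pi) * θ), (interp_incBi hm h).comp_mul (by positivity),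
    fun θ => ?_, fun j => ?_⟩
  · have e1 : (A : ℝ) / (2 * Real.pi) * (θ + 2 * Real.pi) =
        (A : ℝ) / (2 * Real.pi) * θ + A := by
      field_simp
    have h1 : ∀ j, cen A (j + A) = cen A j + 2 * Real.pi := fun j => by
      have := cen_add hA j 1
      rw [one_mul] at this
      simpa using this
    show interp (cen A) _ = _
    rw [e1, interp_add h1]
  · have e1 : (A : ℝ) / (2 * Real.pi) * (2 * Real.pi * j / A) = j := by
      field_simp
    show interp (cen A) _ = _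
    rw [e1, interp_int]

end Vale.Agent.P268.T
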