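import Vale.Agent.P268.T.H121.Radial
import Vale.Agent.P268.T.HEq

/-!
# P268, topological half: functions on the plane given by their values on the circle

`pol f x = ‖x‖ f (arg x)` for `2π`-periodic `f`; metric regularity is the turning condition.
-/

set_option linter.unusedSectionVars false

namespace Vale.Agent.P268.T

open Set Filter Topology

variable {T : Type*} [TopologicalSpace T]

/-- The homogeneous function with given values on the circle. -/
noncomputable def pol (f : ℝ → ℂ) (x : ℂ) : ℂ := ‖x‖ • f (Complex.arg x)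

/-- The turning condition: `f t` is Lipschitz near `θ₀` and its argument increases. -/
def ArgTurn (s : Set T) (f : T → ℝ → ℂ) (t₀ : T) (θ₀ : ℝ) : Prop :=
  ∃ κ : ℝ, 0 < κ ∧ ∃ L : ℝ, ∃ δ : ℝ, 0 < δ ∧ ∀ᶠ t in 𝓝[s] t₀, ∀ x y : ℝ, |x - θ₀| < δ →
    |y - θ₀| < δ → x ≤ y → ‖f t y - f t x‖ ≤ L * (y - x) ∧
      κ * (y - x) ≤ inner ℝ (f t y - f t x) (Complex.I * f t₀ θ₀)

theorem pol_hom (f : ℝ → ℂ) : Hom1 (pol f) := by
  intro r hr x
  rcases hr.eq_or_lt with rfl | hr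
  · simp [pol]
  · have h1 : Complex.arg (r • x) = Complex.arg x := by
      rw [Complex.real_smul, Complex.arg_real_mul x hr]
    rw [pol, pol, norm_smul, Real.norm_eq_abs, abs_of_pos hr, mul_smul, h1]

/-- Change of the base point of the argument. -/
theorem pol_eq {f : ℝ → ℂ} (hf : Function.Periodic f (2 * Real.pi)) {x₀ : ℂ} (hx₀ : x₀ ≠ 0)
    {x : ℂ} (hx : x ≠ 0) : pol f x = ‖x‖ • f (Complex.arg x₀ + Complex.arg (x / x₀)) := by
  have h1 : ((Complex.arg x : ℝ) : Real.Angle) =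
      ((Complex.arg x₀ + Complex.arg (x / x₀) : ℝ) : Real.Angle) := by
    rw [Real.Angle.coe_add, ← Complex.arg_mul_coe_angle hx₀ (div_ne_zero hx hx₀),
      mul_div_cancel₀ _ hx₀]
  obtain ⟨k, hk⟩ := Real.Angle.angle_eq_iff_two_pi_dvd_sub.mp h1
  rw [pol]
  congr 1
  have h2 : Complex.arg x = Complex.arg x₀ + Complex.arg (x / x₀) + k * (2 * Real.pi) := by
    linarith
  rw [h2]
  exact hf.int_mul k _

theorem continuousOn_pol {s : Set T} {f : T → ℝ → ℂ}
    (cont : ContinuousOn (fun p : T × ℝ => f p.1 p.2) (s ×ˢ univ)) {M : ℝ}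
    (bd : ∀ t ∈ s, ∀ θ, ‖f t θ‖ ≤ M)
    (per : ∀ t ∈ s, Function.Periodic (f t) (2 * Real.pi)) :
    ContinuousOn (fun p : T × ℂ => pol (f p.1) p.2) (s ×ˢ univ) := by
  rintro ⟨t₀, x₀⟩ ⟨ht₀, -⟩
  rcases eq_or_ne x₀ 0 with rfl | hx₀
  · have h0 : pol (f t₀) 0 = 0 := by simp [pol]
    rw [ContinuousWithinAt]
    show Tendsto (fun p : T × ℂ => pol (f p.1) p.2) (𝓝[s ×ˢ univ] (t₀, 0)) (𝓝 (pol (f t₀) 0))
    rw [h0]
    refine squeeze_zero_norm' (a := fun p : T × ℂ => ‖p.2‖ * M) ?_ ?_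
    · filter_upwards [self_mem_nhdsWithin] with p hp
      rw [pol, norm_smul, norm_norm]
      exact mul_le_mul_of_nonneg_left (bd p.1 hp.1 _) (norm_nonneg _)
    · have h2 : Tendsto (fun p : T × ℂ => ‖p.2‖ * M) (𝓝 (t₀, 0)) (𝓝 (‖(0 : ℂ)‖ * M)) :=
        (continuous_snd.norm.mul continuous_const).tendsto _
      rw [norm_zero, zero_mul] at h2
      exact h2.mono_left nhdsWithin_le_nhds
  · have h1 : ContinuousWithinAt (fun p : T × ℂ => ‖p.2‖ •
        f p.1 (Complex.arg x₀ + Complex.arg (p.2 / x₀))) (s ×ˢ univ) (t₀, x₀) := by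
      refine ContinuousWithinAt.smul (continuous_snd.norm.continuousWithinAt) ?_
      have h2 : ContinuousWithinAt (fun p : T × ℂ =>
          (p.1, Complex.arg x₀ + Complex.arg (p.2 / x₀))) (s ×ˢ univ) (t₀, x₀) := by
        refine ContinuousAt.continuousWithinAt ?_
        refine continuousAt_fst.prodMk (continuousAt_const.add ?_)
        have h3 : ContinuousAt Complex.arg (x₀ / x₀) := by
          rw [div_self hx₀]
          exact Complex.continuousAt_arg (by simp [Complex.slitPlane])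
        exact ContinuousAt.comp (x := (t₀, x₀)) (f := fun p : T × ℂ => p.2 / x₀) h3
          (continuousAt_snd.div_const x₀)
      have h4 := cont (t₀, Complex.arg x₀ + Complex.arg (x₀ / x₀)) ⟨ht₀, mem_univ _⟩
      exact ContinuousWithinAt.comp (x := (t₀, x₀)) (t := s ×ˢ univ)
        (g := fun p : T × ℝ => f p.1 p.2) h4 h2 (fun p hp => ⟨hp.1, mem_univ _⟩)
    refine h1.congr_of_eventuallyEq ?_ ?_
    · have h5 : ∀ᶠ p : T × ℂ in 𝓝[s ×ˢ univ] (t₀, x₀), p.2 ≠ 0 := by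
        refine nhdsWithin_le_nhds ?_
        exact continuousAt_snd.eventually_ne hx₀
      filter_upwards [h5, self_mem_nhdsWithin] with p hp hps
      exact pol_eq (per p.1 hps.1) hx₀ hp
    · exact pol_eq (per t₀ ht₀) hx₀ hx₀

theorem inner_sub_add_eq (a b : ℂ) : inner ℝ (a - b) (a + b) = ‖a‖ ^ 2 - ‖b‖ ^ 2 := by
  rw [inner_sub_left, inner_add_right, inner_add_right, real_inner_self_eq_norm_sq,
    real_inner_self_eq_norm_sq, real_inner_comm b a]
  ring

/-- Elementary: the norm does not change to first order in the tangential direction. -/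
theorem norm_tangent {x₀ x : ℂ} {η τ : ℝ} (hη : η ≤ ‖x₀‖ / 2) (hx₀ : x₀ ≠ 0)
    (hx : ‖x - x₀‖ < η) (hy : ‖x + τ • (Complex.I * x₀) - x₀‖ < η) :
    |‖x + τ • (Complex.I * x₀)‖ - ‖x‖| ≤ 2 * η * |τ| := by
  set y := x + τ • (Complex.I * x₀) with hyd
  have n0 : 0 < ‖x₀‖ := norm_pos_iff.mpr hx₀
  have e1 : inner ℝ (Complex.I * x₀) x₀ = 0 := by
    rw [Complex.inner]
    simp [Complex.mul_re, Complex.mul_im]
    ring
  have e2 : ‖y‖ ^ 2 - ‖x‖ ^ 2 = τ * inner ℝ (Complex.I * x₀) ((y - x₀) + (x - x₀)) := by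
    have h1 : inner ℝ (Complex.I * x₀) ((y - x₀) + (x - x₀)) =
        inner ℝ (Complex.I * x₀) (y + x) := by
      have : (y - x₀) + (x - x₀) = (y + x) - (2 : ℝ) • x₀ := by
        rw [two_smul]; abel
      rw [this, inner_sub_right, inner_smul_right, e1]
      ring
    rw [h1, ← real_inner_smul_left]
    have h2 : τ • (Complex.I * x₀) = y - x := by rw [hyd]; abel
    rw [h2, inner_sub_add_eq]
  have h3 : |‖y‖ ^ 2 - ‖x‖ ^ 2| ≤ |τ| * (‖x₀‖ * (2 * η)) := by
    rw [e2, abs_mul]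
    refine mul_le_mul_of_nonneg_left ?_ (abs_nonneg _)
    refine (abs_real_inner_le_norm _ _).trans ?_
    rw [norm_mul, Complex.norm_I, one_mul]
    refine mul_le_mul_of_nonneg_left ?_ n0.le
    refine (norm_add_le _ _).trans ?_
    linarith
  have h4 : |‖y‖ ^ 2 - ‖x‖ ^ 2| = |‖y‖ - ‖x‖| * (‖y‖ + ‖x‖) := by
    rw [sq_sub_sq, abs_mul, abs_of_nonneg (by positivity : 0 ≤ ‖y‖ + ‖x‖), mul_comm]
  have h5 : ‖x₀‖ ≤ ‖y‖ + ‖x‖ := by
    have h6 : ‖x₀‖ - ‖x‖ ≤ ‖x - x₀‖ := by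
      rw [norm_sub_rev]; exact norm_sub_norm_le _ _
    have h7 : ‖x₀‖ - ‖y‖ ≤ ‖y - x₀‖ := by
      rw [norm_sub_rev]; exact norm_sub_norm_le _ _
    linarith
  have h8 : |‖y‖ - ‖x‖| * ‖x₀‖ ≤ (2 * η * |τ|) * ‖x₀‖ := by
    calc |‖y‖ - ‖x‖| * ‖x₀‖ ≤ |‖y‖ - ‖x‖| * (‖y‖ + ‖x‖) :=
          mul_le_mul_of_nonneg_left h5 (abs_nonneg _)
      _ ≤ |τ| * (‖x₀‖ * (2 * η)) := by rw [← h4]; exact h3
      _ = _ := by ring
  exact le_of_mul_le_mul_right h8 n0

/-- The argument is strictly differentiable. -/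
theorem arg_strict {x₀ : ℂ} (hx₀ : x₀ ≠ 0) {δ : ℝ} (hδ : 0 < δ) :
    ∃ η > 0, ∀ x y : ℂ, ‖x - x₀‖ < η → ‖y - x₀‖ < η →
      |Complex.arg (y / x₀) - Complex.arg (x / x₀) - ((y - x) / x₀).im| ≤ δ * ‖y - x‖ := by
  have h1 : HasStrictDerivAt Complex.log ((x₀ / x₀)⁻¹) (x₀ / x₀) :=
    Complex.hasStrictDerivAt_log (by rw [div_self hx₀]; simp [Complex.slitPlane])
  have h2 : HasStrictDerivAt (fun x : ℂ => x / x₀) (1 / x₀) x₀ :=
    (hasStrictDerivAt_id x₀).div_const x₀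
  have h3 := HasStrictDerivAt.comp (h := fun x : ℂ => x / x₀) x₀ h1 h2
  rw [div_self hx₀, inv_one, one_mul] at h3
  have h4 := h3.hasStrictFDerivAt.isLittleO.def hδ
  rw [nhds_prod_eq] at h4
  obtain ⟨pa, ha, pb, hb, hsub⟩ := eventually_prod_iff.mp h4
  obtain ⟨η, hη, hball⟩ := Metric.eventually_nhds_iff.mp (ha.and hb)
  refine ⟨η, hη, fun x y hx hy => ?_⟩
  have h5 := hsub (hball (y := y) (by rwa [dist_eq_norm])).1
    (hball (y := x) (by rwa [dist_eq_norm])).2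
  have h6 : Complex.arg (y / x₀) - Complex.arg (x / x₀) - ((y - x) / x₀).im =
      (Complex.log (y / x₀) - Complex.log (x / x₀) - (y - x) / x₀).im := by
    simp only [Complex.sub_im, Complex.log_im]
  rw [h6]
  refine (Complex.abs_im_le_norm _).trans ?_
  refine le_trans (le_of_eq ?_) h5
  congr 1
  simp only [Function.comp_apply, ContinuousLinearMap.toSpanSingleton_apply, smul_eq_mul]
  ring

/-- The arithmetic of `regAt_pol` (one direction). -/
theorem pol_incr {x y v : ℂ} {n κ M η τ Δ : ℝ} {a b : ℂ} (hn0 : 0 < n)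
    (hκ : 0 < κ) (hM : 0 ≤ M) (hτ : 0 ≤ τ) (hη1 : 4 * η * M * M ≤ n * κ / 4)
    (hx : n / 2 ≤ ‖x‖) (hy : |‖y‖ - ‖x‖| ≤ 2 * η * τ) (hb : ‖b‖ ≤ M) (hv : ‖v‖ ≤ M)
    (hΔ : τ / 2 ≤ Δ) (h : κ * Δ ≤ inner ℝ (b - a) (Complex.I * v)) (hη0 : 0 ≤ η) :
    n ^ 2 * κ / 8 * τ ≤ inner ℝ (‖y‖ • b - ‖x‖ • a) (Complex.I * (n • v)) := by
  have e1 : ‖y‖ • b - ‖x‖ • a = (‖y‖ - ‖x‖) • b + ‖x‖ • (b - a) := by
    rw [sub_smul, smul_sub]; abel
  have e2 : Complex.I * (n • v) = n • (Complex.I * v) := by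
    rw [mul_smul_comm]
  rw [e1, e2, inner_add_left, inner_smul_right, inner_smul_right, real_inner_smul_left,
    real_inner_smul_left]
  have h1 : |inner ℝ b (Complex.I * v)| ≤ M * M := by
    refine (abs_real_inner_le_norm _ _).trans ?_
    rw [norm_mul, Complex.norm_I, one_mul]
    exact mul_le_mul hb hv (norm_nonneg _) hM
  have h2 : |(‖y‖ - ‖x‖) * inner ℝ b (Complex.I * v)| ≤ 2 * η * τ * (M * M) := by
    rw [abs_mul]
    exact mul_le_mul hy h1 (abs_nonneg _) (by positivity)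
  have h3 : n / 2 * (κ * (τ / 2)) ≤ ‖x‖ * inner ℝ (b - a) (Complex.I * v) := by
    have h4 : κ * (τ / 2) ≤ κ * Δ := mul_le_mul_of_nonneg_left hΔ hκ.le
    exact mul_le_mul hx (h4.trans h) (by positivity) (norm_nonneg _)
  have h5 := (abs_le.mp h2).1
  have h6 : 2 * η * τ * (M * M) ≤ n * κ / 8 * τ := by nlinarith
  have h7 : n * κ / 8 * τ ≤ (‖y‖ - ‖x‖) * inner ℝ b (Complex.I * v) +
      ‖x‖ * inner ℝ (b - a) (Complex.I * v) := by nlinarith
  nlinarith

/-- **Regularity of functions given on the circle** is the turning condition. -/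
theorem regAt_pol {s : Set T} {f : T → ℝ → ℂ}
    (cont : ContinuousOn (fun p : T × ℝ => f p.1 p.2) (s ×ˢ univ)) {M : ℝ}
    (bd : ∀ t ∈ s, ∀ θ, ‖f t θ‖ ≤ M)
    (per : ∀ t ∈ s, Function.Periodic (f t) (2 * Real.pi)) {t₀ : T} (ht₀ : t₀ ∈ s) {x₀ : ℂ}
    (hx₀ : x₀ ≠ 0) (hv₀ : f t₀ (Complex.arg x₀) ≠ 0) (h : ArgTurn s f t₀ (Complex.arg x₀)) :
    RegAt s (fun t => pol (f t)) t₀ x₀ := by
  obtain ⟨κ, hκ, L, δ, hδ, hev⟩ := h
  have hM : 0 ≤ M := (norm_nonneg _).trans (bd t₀ ht₀ 0)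
  set n : ℝ := ‖x₀‖ with hn
  have hn0 : 0 < n := norm_pos_iff.mpr hx₀
  obtain ⟨η₁, hη₁, hstrict⟩ := arg_strict hx₀ (δ := 1 / (2 * n)) (by positivity)
  obtain ⟨η₂, hη₂, hclose⟩ : ∃ η > 0, ∀ x : ℂ, ‖x - x₀‖ < η → |Complex.arg (x / x₀)| < δ := by
    have h3 : ContinuousAt Complex.arg (x₀ / x₀) := by
      rw [div_self hx₀]
      exact Complex.continuousAt_arg (by simp [Complex.slitPlane])
    have h4 : ContinuousAt (fun x => Complex.arg (x / x₀)) x₀ :=
      ContinuousAt.comp (f := fun x : ℂ => x / x₀) h3 (continuousAt_id.div_const x₀)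
    obtain ⟨η, hη, hb⟩ := Metric.continuousAt_iff.mp h4 δ hδ
    refine ⟨η, hη, fun x hx => ?_⟩
    have := hb (x := x) (by rwa [dist_eq_norm])
    rw [dist_eq_norm, div_self hx₀, Complex.arg_one, sub_zero] at this
    exact this
  set η : ℝ := min (min (min η₁ η₂) (n / 2)) (n * κ / (16 * M * M + 1)) with hη
  have hη0 : 0 < η := by
    refine lt_min (lt_min (lt_min hη₁ hη₂) (by positivity)) (by positivity)
  have hηa : η ≤ η₁ := (min_le_left _ _).trans ((min_le_left _ _).trans (min_le_left _ _))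
  have hηb : η ≤ η₂ := (min_le_left _ _).trans ((min_le_left _ _).trans (min_le_right _ _))
  have hηc : η ≤ n / 2 := (min_le_left _ _).trans (min_le_right _ _)
  have hηd : 4 * η * M * M ≤ n * κ / 4 := by
    have h1 : η ≤ n * κ / (16 * M * M + 1) := min_le_right _ _
    rw [le_div_iff₀ (by positivity)] at h1
    nlinarith
  have hps : ∀ x, ‖x - x₀‖ < η → x ≠ 0 := by
    rintro x hx rfl
    rw [zero_sub, norm_neg] at hx
    linarith
  have hpn : ∀ x, ‖x - x₀‖ < η → n / 2 ≤ ‖x‖ ∧ ‖x‖ ≤ 2 * n := by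
    intro x hx
    have h1 : ‖x₀‖ - ‖x‖ ≤ ‖x - x₀‖ := by
      rw [norm_sub_rev]; exact norm_sub_norm_le _ _
    have h2 : ‖x‖ - ‖x₀‖ ≤ ‖x - x₀‖ := norm_sub_norm_le _ _
    constructor <;> linarith
  -- the argument
  set ψ : ℂ → ℝ := fun x => Complex.arg x₀ + Complex.arg (x / x₀) with hψ
  have hψδ : ∀ x, ‖x - x₀‖ < η → |ψ x - Complex.arg x₀| < δ := by
    intro x hx
    rw [hψ]
    simp only [add_sub_cancel_left]
    exact hclose x (by linarith)
  have hψL : ∀ x y, ‖x - x₀‖ < η → ‖y - x₀‖ < η → |ψ y - ψ x| ≤ 2 / n * ‖y - x‖ := by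
    intro x y hx hy
    have h1 := hstrict x y (by linarith) (by linarith)
    have h2 : |((y - x) / x₀).im| ≤ 1 / n * ‖y - x‖ := by
      refine (Complex.abs_im_le_norm _).trans ?_
      rw [norm_div, ← hn]
      apply le_of_eq
      ring
    have h3 : ψ y - ψ x = (Complex.arg (y / x₀) - Complex.arg (x / x₀) - ((y - x) / x₀).im) +
        ((y - x) / x₀).im := by rw [hψ]; ring
    rw [h3]
    refine (abs_add_le _ _).trans ?_
    have h4 : 1 / (2 * n) * ‖y - x‖ ≤ 1 / n * ‖y - x‖ := by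
      refine mul_le_mul_of_nonneg_right ?_ (norm_nonneg _)
      exact one_div_le_one_div_of_le hn0 (by linarith)
    calc _ ≤ 1 / n * ‖y - x‖ + 1 / n * ‖y - x‖ := add_le_add (h1.trans h4) h2
      _ = 2 / n * ‖y - x‖ := by ring
  have hval : ∀ t ∈ s, ∀ x, x ≠ 0 → pol (f t) x = ‖x‖ • f t (ψ x) := fun t ht x hx =>
    pol_eq (per t ht) hx₀ hx
  have hval₀ : pol (f t₀) x₀ = n • f t₀ (Complex.arg x₀) := rfl
  set L' : ℝ := max L 0 with hL'
  refine RegAt.of_angular' (continuousOn_pol cont bd per) (fun t _ => pol_hom _) ht₀ (x₀ := x₀)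
    (L := M + 2 * n * (L' * (2 / n))) (κ := n ^ 2 * κ / 8) ?_ (by positivity)
    (Complex.I * x₀) ?_
  · rw [hval₀]
    exact smul_ne_zero hn0.ne' hv₀
  refine ⟨Metric.ball x₀ η, Metric.ball_mem_nhds _ hη0, ?_⟩
  filter_upwards [hev, self_mem_nhdsWithin] with t ht hts x hx
  rw [Metric.mem_ball, dist_eq_norm] at hx
  -- the one-sided estimate
  have key : ∀ x : ℂ, ‖x - x₀‖ < η → ∀ τ : ℝ, 0 ≤ τ → ‖x + τ • (Complex.I * x₀) - x₀‖ < η →
      n ^ 2 * κ / 8 * τ ≤ inner ℝ (pol (f t) (x + τ • (Complex.I * x₀)) - pol (f t) x)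
        (Complex.I * pol (f t₀) x₀) := by
    intro x hx τ hτ hy
    set y := x + τ • (Complex.I * x₀) with hyd
    rw [hval t hts x (hps x hx), hval t hts y (hps y hy), hval₀]
    have h1 := hstrict x y (by linarith) (by linarith)
    have h2 : y - x = τ • (Complex.I * x₀) := by rw [hyd]; abel
    have h3 : ((y - x) / x₀).im = τ := by
      rw [h2, Complex.real_smul, mul_div_assoc, mul_div_assoc, div_self hx₀, mul_one]
      simp
    have h4 : ‖y - x‖ = τ * n := by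
      rw [h2, norm_smul, norm_mul, Complex.norm_I, one_mul, Real.norm_eq_abs, abs_of_nonneg hτ]
    rw [h3, h4] at h1
    have h5 : 1 / (2 * n) * (τ * n) = τ / 2 := by field_simp
    rw [h5] at h1
    have h6 : τ / 2 ≤ ψ y - ψ x := by
      have := (abs_le.mp h1).1
      rw [hψ]
      simp only
      linarith
    have h7 := ht (ψ x) (ψ y) (hψδ x hx) (hψδ y hy) (by linarith)
    have h8 := norm_tangent (x := x) (η := η) (τ := τ) hηc hx₀ hx hy
    rw [abs_of_nonneg hτ] at h8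
    exact pol_incr (Δ := ψ y - ψ x) hn0 hκ hM hτ hηd (hpn x hx).1 h8 (bd t hts _)
      (bd t₀ ht₀ _) h6 h7.2 hη0.le
  constructor
  · intro y hy
    rw [Metric.mem_ball, dist_eq_norm] at hy
    rw [hval t hts x (hps x hx), hval t hts y (hps y hy)]
    have e1 : ‖y‖ • f t (ψ y) - ‖x‖ • f t (ψ x) =
        (‖y‖ - ‖x‖) • f t (ψ y) + ‖x‖ • (f t (ψ y) - f t (ψ x)) := by
      rw [sub_smul, smul_sub]; abel
    have h1 : ‖f t (ψ y) - f t (ψ x)‖ ≤ L' * |ψ y - ψ x| := by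
      rcases le_total (ψ x) (ψ y) with hle | hle
      · have := (ht (ψ x) (ψ y) (hψδ x hx) (hψδ y hy) hle).1
        rw [abs_of_nonneg (by linarith)]
        exact this.trans (mul_le_mul_of_nonneg_right (le_max_left _ _) (by linarith))
      · have := (ht (ψ y) (ψ x) (hψδ y hy) (hψδ x hx) hle).1
        rw [abs_sub_comm, abs_of_nonneg (by linarith), norm_sub_rev]
        exact this.trans (mul_le_mul_of_nonneg_right (le_max_left _ _) (by linarith))
    have hL0 : 0 ≤ L' := le_max_right _ _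
    rw [e1]
    refine (norm_add_le _ _).trans ?_
    rw [norm_smul, norm_smul, norm_norm, Real.norm_eq_abs, add_mul]
    refine add_le_add ?_ ?_
    · rw [mul_comm M]
      exact mul_le_mul (abs_norm_sub_norm_le _ _) (bd t hts _) (norm_nonneg _) (norm_nonneg _)
    · rw [mul_assoc]
      refine mul_le_mul (hpn x hx).2 ?_ (norm_nonneg _) (by positivity)
      rw [mul_assoc]
      exact h1.trans (mul_le_mul_of_nonneg_left (hψL x y hx hy) hL0)
  · intro τ hτ
    rw [Metric.mem_ball, dist_eq_norm] at hτ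
    rcases le_total 0 τ with h0 | h0
    · have := key x hx τ h0 hτ
      calc n ^ 2 * κ / 8 * τ ^ 2 = τ * (n ^ 2 * κ / 8 * τ) := by ring
        _ ≤ _ := mul_le_mul_of_nonneg_left this h0
    · have e1 : x + τ • (Complex.I * x₀) + (-τ) • (Complex.I * x₀) = x := by
        rw [neg_smul]; abel
      have := key (x + τ • (Complex.I * x₀)) hτ (-τ) (by linarith) (by rw [e1]; exact hx)
      rw [e1] at this
      have e2 : τ * inner ℝ (pol (f t) (x + τ • (Complex.I * x₀)) - pol (f t) x)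
          (Complex.I * pol (f t₀) x₀) =
          (-τ) * inner ℝ (pol (f t) x - pol (f t) (x + τ • (Complex.I * x₀)))
          (Complex.I * pol (f t₀) x₀) := by
        rw [← neg_sub (pol (f t) x), inner_neg_left]
        ring
      rw [e2]
      calc n ^ 2 * κ / 8 * τ ^ 2 = (-τ) * (n ^ 2 * κ / 8 * (-τ)) := by ring
        _ ≤ _ := mul_le_mul_of_nonneg_left this (by linarith)

end Vale.Agent.P268.T
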