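import Vale.Agent.P268.T.H500.Turn

/-!
# P268, topological half: families given on the circle; windows
-/

set_option linter.unusedSectionVars false

namespace Vale.Agent.P268.T

open Set Filter Topology

variable {T : Type*} [TopologicalSpace T]

theorem inner_turn (w v : ℂ) : inner ℝ w (Complex.I * v) = w.im * v.re - w.re * v.im := by
  rw [Complex.inner]
  simp [Complex.mul_re, Complex.mul_im]
  ring

/-- Families of functions on the circle which turn wherever the real part is nonnegative. -/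
structure TurnFam (s : Set T) (f : T → ℝ → ℂ) : Prop where
  cont : ContinuousOn (fun p : T × ℝ => f p.1 p.2) (s ×ˢ univ)
  bd : ∃ M : ℝ, ∀ t ∈ s, ∀ θ, ‖f t θ‖ ≤ M
  per : ∀ t ∈ s, Function.Periodic (f t) (2 * Real.pi)
  turn : ∀ t ∈ s, ∀ θ, 0 ≤ (f t θ).re → f t θ ≠ 0 ∧ ArgTurn s f t θ

theorem TurnFam.hFam {s : Set T} {f : T → ℝ → ℂ} (h : TurnFam s f) :
    HFam s (fun t => pol (f t)) := by
  obtain ⟨M, hM⟩ := h.bd
  refine ⟨continuousOn_pol h.cont hM h.per, fun t _ => pol_hom _, fun t ht x hx h0 => ?_⟩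
  have hn : 0 < ‖x‖ := norm_pos_iff.mpr hx
  have h1 : 0 ≤ (f t (Complex.arg x)).re := by
    have h2 : 0 ≤ ‖x‖ * (f t (Complex.arg x)).re := by
      rw [pol, Complex.smul_re, smul_eq_mul] at h0
      exact h0
    exact nonneg_of_mul_nonneg_right h2 hn
  obtain ⟨h3, h4⟩ := h.turn t ht _ h1
  exact regAt_pol h.cont hM h.per ht hx h3 h4

/-- Turning condition at a point of a window with centre `c`. -/
def LocWin (f : ℝ → ℂ) (c θ₀ : ℝ) : Prop :=
  ((c < θ₀ → 0 < (f θ₀).im) ∧ (θ₀ < c → (f θ₀).im < 0) ∧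
    (θ₀ = c → (f θ₀).im = 0 ∧ 0 < (f θ₀).re)) ∧
  ∃ m : ℝ, 0 < m ∧ ∃ L : ℝ, ∃ δ : ℝ, 0 < δ ∧ ∀ x y : ℝ, |x - θ₀| < δ → |y - θ₀| < δ → x ≤ y →
    ‖f y - f x‖ ≤ L * (y - x) ∧ m * (y - x) ≤ (f y).im - (f x).im ∧
    (c < θ₀ → (f y).re - (f x).re ≤ -(m * (y - x))) ∧
    (θ₀ < c → m * (y - x) ≤ (f y).re - (f x).re)

/-- `f` has its windows (where the real part is nonnegative) in the `r`-neighbourhoods of the
centres `C`, and has the local form of windows in their `ω`-neighbourhoods. -/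
structure Win (f : ℝ → ℂ) (C : Set ℝ) (r ω : ℝ) : Prop where
  cont : Continuous f
  per : Function.Periodic f (2 * Real.pi)
  near : ∀ θ, 0 ≤ (f θ).re → ∃ c ∈ C, |θ - c| < r
  loc : ∀ c ∈ C, ∀ θ, |θ - c| < ω → LocWin f c θ

theorem Win.mono {f : ℝ → ℂ} {C : Set ℝ} {r r' ω ω' : ℝ} (h : Win f C r ω) (hr : r ≤ r')
    (hω : ω' ≤ ω) : Win f C r' ω' :=
  ⟨h.cont, h.per, fun θ h0 => by
    obtain ⟨c, hc, h1⟩ := h.near θ h0
    exact ⟨c, hc, h1.trans_le hr⟩, fun c hc θ h1 => h.loc c hc θ (h1.trans_le hω)⟩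

theorem Function.Periodic.bounded {f : ℝ → ℂ} (hf : Function.Periodic f (2 * Real.pi))
    (hc : Continuous f) : ∃ M : ℝ, ∀ θ, ‖f θ‖ ≤ M := by
  obtain ⟨M, hM⟩ := isCompact_Icc.exists_bound_of_continuousOn
    (s := Icc (0 : ℝ) (2 * Real.pi)) hc.continuousOn
  refine ⟨M, fun θ => ?_⟩
  obtain ⟨y, hy, hy'⟩ := hf.exists_mem_Ico₀ (by positivity) θ
  rw [hy']
  exact hM y ⟨hy.1, hy.2.le⟩

theorem Win.straight {f g : ℝ → ℂ} {C : Set ℝ} {ω : ℝ} (hf : Win f C ω ω) (hg : Win g C ω ω) :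
    TurnFam (Icc (0 : ℝ) 1) (fun t θ => (1 - t) • f θ + t • g θ) := by
  refine ⟨?_, ?_, ?_, ?_⟩
  · have h1 := hf.cont
    have h2 := hg.cont
    exact Continuous.continuousOn (by fun_prop)
  · obtain ⟨M, hM⟩ := Function.Periodic.bounded hf.per hf.cont
    obtain ⟨M', hM'⟩ := Function.Periodic.bounded hg.per hg.cont
    refine ⟨M + M', fun t ht θ => ?_⟩
    refine (norm_add_le _ _).trans ?_
    rw [norm_smul, norm_smul, Real.norm_eq_abs, Real.norm_eq_abs,
      abs_of_nonneg (by linarith [ht.2]), abs_of_nonneg ht.1]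
    have h1 := hM θ
    have h2 := hM' θ
    have h3 := norm_nonneg (f θ)
    have h4 := norm_nonneg (g θ)
    have h5 : (1 - t) * ‖f θ‖ ≤ 1 * ‖f θ‖ := mul_le_mul_of_nonneg_right (by linarith [ht.1]) h3
    have h6 : t * ‖g θ‖ ≤ 1 * ‖g θ‖ := mul_le_mul_of_nonneg_right (by linarith [ht.2]) h4
    linarith
  · intro t _ θ
    show (1 - t) • f (θ + 2 * Real.pi) + t • g (θ + 2 * Real.pi) = _
    rw [hf.per, hg.per]
  · intro t₀ ht₀ θ₀ h0
    have hre : ∀ (t θ : ℝ), ((1 - t) • f θ + t • g θ).re = (1 - t) * (f θ).re + t * (g θ).re := by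
      intro t θ; simp
    have him : ∀ (t θ : ℝ), ((1 - t) • f θ + t • g θ).im = (1 - t) * (f θ).im + t * (g θ).im := by
      intro t θ; simp
    obtain ⟨c, hc, hcθ⟩ : ∃ c ∈ C, |θ₀ - c| < ω := by
      by_cases h1 : 0 ≤ (f θ₀).re
      · exact hf.near θ₀ h1
      · by_cases h2 : 0 ≤ (g θ₀).re
        · exact hg.near θ₀ h2
        · exfalso
          rw [hre] at h0
          push Not at h1 h2
          rcases ht₀.1.eq_or_lt with h3 | h3
          · rw [← h3] at h0; linarith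
          · have h4 : t₀ * (g θ₀).re < 0 := mul_neg_of_pos_of_neg h3 h2
            have h5 : (1 - t₀) * (f θ₀).re ≤ 0 :=
              mul_nonpos_of_nonneg_of_nonpos (by linarith [ht₀.2]) h1.le
            linarith
    obtain ⟨⟨f1, f2, f3⟩, m, hm, L, δ, hδ, hfl⟩ := hf.loc c hc θ₀ hcθ
    obtain ⟨⟨g1, g2, g3⟩, m', hm', L', δ', hδ', hgl⟩ := hg.loc c hc θ₀ hcθ
    have hconv : ∀ {a b : ℝ}, 0 < a → 0 < b → 0 < (1 - t₀) * a + t₀ * b := by
      intro a b ha hb
      rcases ht₀.1.eq_or_lt with h3 | h3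
      · rw [← h3]; linarith
      · have h4 : 0 < t₀ * b := mul_pos h3 hb
        have h5 : 0 ≤ (1 - t₀) * a := mul_nonneg (by linarith [ht₀.2]) ha.le
        linarith
    -- the value
    set R : ℝ := ((1 - t₀) • f θ₀ + t₀ • g θ₀).re with hR
    set J : ℝ := ((1 - t₀) • f θ₀ + t₀ • g θ₀).im with hJ
    have s1 : c < θ₀ → 0 < J := fun h => by
      rw [hJ, him]; exact hconv (f1 h) (g1 h)
    have s2 : θ₀ < c → J < 0 := fun h => by
      rw [hJ, him]
      have := hconv (a := -(f θ₀).im) (b := -(g θ₀).im) (by linarith [f2 h]) (by linarith [g2 h])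
      linarith
    have s3 : θ₀ = c → J = 0 ∧ 0 < R := fun h => by
      rw [hJ, him, hR, hre, (f3 h).1, (g3 h).1]
      exact ⟨by ring, hconv (f3 h).2 (g3 h).2⟩
    have hRJ : 0 < R + |J| := by
      rcases lt_trichotomy c θ₀ with h | h | h
      · have := abs_pos.mpr (s1 h).ne'
        linarith
      · have := (s3 h.symm).2
        have := abs_nonneg J
        linarith
      · have := abs_pos.mpr (s2 h).ne
        linarith
    refine ⟨?_, ?_⟩
    · intro h
      have hR0 : R = 0 := by rw [hR, h]; rfl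
      have hJ0 : J = 0 := by rw [hJ, h]; rfl
      rw [hR0, hJ0] at hRJ
      simp at hRJ
    · refine ⟨min m m' * (R + |J|), mul_pos (lt_min hm hm') hRJ, max L L', min δ δ',
        lt_min hδ hδ', ?_⟩
      filter_upwards [self_mem_nhdsWithin] with t ht x y hx hy hxy
      obtain ⟨a1, a2, a3, a4⟩ := hfl x y (lt_of_lt_of_le hx (min_le_left _ _))
        (lt_of_lt_of_le hy (min_le_left _ _)) hxy
      obtain ⟨b1, b2, b3, b4⟩ := hgl x y (lt_of_lt_of_le hx (min_le_right _ _))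
        (lt_of_lt_of_le hy (min_le_right _ _)) hxy
      have t0 : 0 ≤ 1 - t := by linarith [ht.2]
      have t1 : 0 ≤ t := ht.1
      have hd : 0 ≤ y - x := by linarith
      have hmin1 : min m m' * (y - x) ≤ m * (y - x) :=
        mul_le_mul_of_nonneg_right (min_le_left _ _) hd
      have hmin2 : min m m' * (y - x) ≤ m' * (y - x) :=
        mul_le_mul_of_nonneg_right (min_le_right _ _) hd
      set μ := min m m' with hμ
      constructor
      · have e1 : (1 - t) • f y + t • g y - ((1 - t) • f x + t • g x) =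
            (1 - t) • (f y - f x) + t • (g y - g x) := by
          rw [smul_sub, smul_sub]; abel
        rw [e1]
        refine (norm_add_le _ _).trans ?_
        rw [norm_smul, norm_smul, Real.norm_eq_abs, Real.norm_eq_abs, abs_of_nonneg t0,
          abs_of_nonneg t1]
        have h1 : ‖f y - f x‖ ≤ max L L' * (y - x) :=
          a1.trans (mul_le_mul_of_nonneg_right (le_max_left _ _) hd)
        have h2 : ‖g y - g x‖ ≤ max L L' * (y - x) :=
          b1.trans (mul_le_mul_of_nonneg_right (le_max_right _ _) hd)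
        calc (1 - t) * ‖f y - f x‖ + t * ‖g y - g x‖
            ≤ (1 - t) * (max L L' * (y - x)) + t * (max L L' * (y - x)) :=
              add_le_add (mul_le_mul_of_nonneg_left h1 t0) (mul_le_mul_of_nonneg_left h2 t1)
          _ = _ := by ring
      · rw [inner_turn]
        have e1 : ((1 - t) • f y + t • g y - ((1 - t) • f x + t • g x)).im =
            (1 - t) * ((f y).im - (f x).im) + t * ((g y).im - (g x).im) := by
          rw [Complex.sub_im, him, him]; ring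
        have e2 : ((1 - t) • f y + t • g y - ((1 - t) • f x + t • g x)).re =
            (1 - t) * ((f y).re - (f x).re) + t * ((g y).re - (g x).re) := by
          rw [Complex.sub_re, hre, hre]; ring
        rw [e1, e2, ← hR, ← hJ]
        have hI : μ * (y - x) ≤ (1 - t) * ((f y).im - (f x).im) + t * ((g y).im - (g x).im) := by
          calc μ * (y - x) = (1 - t) * (μ * (y - x)) + t * (μ * (y - x)) := by ring
            _ ≤ _ := add_le_add (mul_le_mul_of_nonneg_left (hmin1.trans a2) t0)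
              (mul_le_mul_of_nonneg_left (hmin2.trans b2) t1)
        have hIR : μ * (y - x) * R ≤
            ((1 - t) * ((f y).im - (f x).im) + t * ((g y).im - (g x).im)) * R :=
          mul_le_mul_of_nonneg_right hI h0
        rcases lt_trichotomy c θ₀ with h | h | h
        · have hRe : (1 - t) * ((f y).re - (f x).re) + t * ((g y).re - (g x).re) ≤
              -(μ * (y - x)) := by
            have h1 : (f y).re - (f x).re ≤ -(μ * (y - x)) := (a3 h).trans (by linarith)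
            have h2 : (g y).re - (g x).re ≤ -(μ * (y - x)) := (b3 h).trans (by linarith)
            calc _ ≤ (1 - t) * (-(μ * (y - x))) + t * (-(μ * (y - x))) :=
                  add_le_add (mul_le_mul_of_nonneg_left h1 t0) (mul_le_mul_of_nonneg_left h2 t1)
              _ = _ := by ring
          have hJ0 := s1 h
          rw [abs_of_pos hJ0]
          have := mul_le_mul_of_nonneg_right hRe hJ0.le
          nlinarith
        · have hJ0 := (s3 h.symm).1
          rw [hJ0, abs_zero, add_zero, mul_zero, sub_zero]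
          calc μ * R * (y - x) = μ * (y - x) * R := by ring
            _ ≤ _ := hIR
        · have hRe : μ * (y - x) ≤
              (1 - t) * ((f y).re - (f x).re) + t * ((g y).re - (g x).re) := by
            have h1 : μ * (y - x) ≤ (f y).re - (f x).re := hmin1.trans (a4 h)
            have h2 : μ * (y - x) ≤ (g y).re - (g x).re := hmin2.trans (b4 h)
            calc μ * (y - x) = (1 - t) * (μ * (y - x)) + t * (μ * (y - x)) := by ring
              _ ≤ _ := add_le_add (mul_le_mul_of_nonneg_left h1 t0)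
                  (mul_le_mul_of_nonneg_left h2 t1)
          have hJ0 := s2 h
          rw [abs_of_neg hJ0]
          have := mul_le_mul_of_nonneg_right hRe (neg_nonneg.mpr hJ0.le)
          nlinarith

/-! ### Increasing changes of the parameter -/

/-- `Φ` is increasing and bi-Lipschitz. -/
def IncBi (m L : ℝ) (Φ : ℝ → ℝ) : Prop :=
  0 < m ∧ ∀ x y, x ≤ y → m * (y - x) ≤ Φ y - Φ x ∧ Φ y - Φ x ≤ L * (y - x)

theorem IncBi.mono' {m L : ℝ} {Φ : ℝ → ℝ} (h : IncBi m L Φ) {x y : ℝ} (hxy : x ≤ y) :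
    Φ x ≤ Φ y := by
  have h1 := (h.2 x y hxy).1
  have h2 : 0 ≤ m * (y - x) := mul_nonneg h.1.le (by linarith)
  linarith

theorem IncBi.lt {m L : ℝ} {Φ : ℝ → ℝ} (h : IncBi m L Φ) {x y : ℝ} (hxy : x < y) :
    Φ x < Φ y := by
  have h1 := (h.2 x y hxy.le).1
  have h2 : 0 < m * (y - x) := mul_pos h.1 (by linarith)
  linarith

theorem IncBi.lt_iff {m L : ℝ} {Φ : ℝ → ℝ} (h : IncBi m L Φ) {x y : ℝ} : Φ x < Φ y ↔ x < y :=
  ⟨fun h1 => lt_of_not_ge fun h2 => absurd (h.mono' h2) (not_le.mpr h1), h.lt⟩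

theorem IncBi.L_nonneg {m L : ℝ} {Φ : ℝ → ℝ} (h : IncBi m L Φ) : 0 < L := by
  have h1 := h.2 0 1 zero_le_one
  have := h.1
  linarith [h1.1.trans h1.2]

theorem IncBi.abs_le {m L : ℝ} {Φ : ℝ → ℝ} (h : IncBi m L Φ) (x y : ℝ) :
    m * |x - y| ≤ |Φ x - Φ y| ∧ |Φ x - Φ y| ≤ L * |x - y| := by
  rcases le_total x y with hxy | hxy
  · obtain ⟨h1, h2⟩ := h.2 x y hxy
    rw [abs_sub_comm x y, abs_sub_comm (Φ x) (Φ y), abs_of_nonneg (by linarith : 0 ≤ y - x),
      abs_of_nonneg (by linarith [h.mono' hxy] : 0 ≤ Φ y - Φ x)]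
    exact ⟨h1, h2⟩
  · obtain ⟨h1, h2⟩ := h.2 y x hxy
    rw [abs_of_nonneg (by linarith : 0 ≤ x - y),
      abs_of_nonneg (by linarith [h.mono' hxy] : 0 ≤ Φ x - Φ y)]
    exact ⟨h1, h2⟩

theorem IncBi.continuous {m L : ℝ} {Φ : ℝ → ℝ} (h : IncBi m L Φ) : Continuous Φ := by
  have : LipschitzWith ⟨L, h.L_nonneg.le⟩ Φ := by
    refine LipschitzWith.of_dist_le_mul fun x y => ?_
    rw [Real.dist_eq, Real.dist_eq]
    exact (h.abs_le x y).2
  exact this.continuous

theorem IncBi.comp_mul {m L a : ℝ} {Φ : ℝ → ℝ} (h : IncBi m L Φ) (ha : 0 < a) :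
    IncBi (m * a) (L * a) (fun x => Φ (a * x)) := by
  refine ⟨mul_pos h.1 ha, fun x y hxy => ?_⟩
  have h1 := h.2 (a * x) (a * y) (mul_le_mul_of_nonneg_left hxy ha.le)
  constructor
  · calc m * a * (y - x) = m * (a * y - a * x) := by ring
      _ ≤ _ := h1.1
  · calc _ ≤ L * (a * y - a * x) := h1.2
      _ = L * a * (y - x) := by ring

theorem LocWin.comp {f : ℝ → ℂ} {m L : ℝ} {Φ : ℝ → ℝ} (h : IncBi m L Φ) {c θ₀ : ℝ}
    (hf : LocWin f (Φ c) (Φ θ₀)) : LocWin (fun θ => f (Φ θ)) c θ₀ := by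
  obtain ⟨⟨f1, f2, f3⟩, μ, hμ, M, δ, hδ, hl⟩ := hf
  refine ⟨⟨fun h1 => f1 (h.lt h1), fun h1 => f2 (h.lt h1), fun h1 => f3 (by rw [h1])⟩,
    μ * m, mul_pos hμ h.1, (max M 0) * L, δ / L, div_pos hδ h.L_nonneg, fun x y hx hy hxy => ?_⟩
  have hb : ∀ x, |x - θ₀| < δ / L → |Φ x - Φ θ₀| < δ := fun x hx => by
    refine (h.abs_le x θ₀).2.trans_lt ?_
    rw [lt_div_iff₀ h.L_nonneg] at hx
    linarith
  obtain ⟨a1, a2, a3, a4⟩ := hl (Φ x) (Φ y) (hb x hx) (hb y hy) (h.mono' hxy)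
  obtain ⟨i1, i2⟩ := h.2 x y hxy
  have hd : 0 ≤ Φ y - Φ x := by linarith [h.mono' hxy]
  have e1 : μ * m * (y - x) ≤ μ * (Φ y - Φ x) := by
    rw [mul_assoc]; exact mul_le_mul_of_nonneg_left i1 hμ.le
  refine ⟨?_, e1.trans a2, fun h1 => (a3 (h.lt h1)).trans (by linarith),
    fun h1 => e1.trans (a4 (h.lt h1))⟩
  calc ‖f (Φ y) - f (Φ x)‖ ≤ M * (Φ y - Φ x) := a1
    _ ≤ max M 0 * (Φ y - Φ x) := mul_le_mul_of_nonneg_right (le_max_left _ _) hd
    _ ≤ max M 0 * (L * (y - x)) := mul_le_mul_of_nonneg_left i2 (le_max_right _ _)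
    _ = _ := by ring

/-- Windows give the turning condition at all points where the real part is nonnegative. -/
theorem LocWin.turn {f : ℝ → ℂ} {c θ₀ : ℝ} (h : LocWin f c θ₀) (h0 : 0 ≤ (f θ₀).re) :
    f θ₀ ≠ 0 ∧ ∃ κ : ℝ, 0 < κ ∧ ∃ L : ℝ, ∃ δ : ℝ, 0 < δ ∧ ∀ x y : ℝ, |x - θ₀| < δ →
    |y - θ₀| < δ → x ≤ y → ‖f y - f x‖ ≤ L * (y - x) ∧
      κ * (y - x) ≤ inner ℝ (f y - f x) (Complex.I * f θ₀) := by
  obtain ⟨⟨f1, f2, f3⟩, m, hm, L, δ, hδ, hl⟩ := h
  set R := (f θ₀).re with hR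
  set J := (f θ₀).im with hJ
  have hRJ : 0 < R + |J| := by
    rcases lt_trichotomy c θ₀ with h | h | h
    · have := abs_pos.mpr (f1 h).ne'
      linarith
    · have := (f3 h.symm).2
      have := abs_nonneg J
      linarith
    · have := abs_pos.mpr (f2 h).ne
      linarith
  refine ⟨?_, m * (R + |J|), mul_pos hm hRJ, L, δ, hδ, fun x y hx hy hxy => ?_⟩
  · intro h
    rw [hR, hJ, h] at hRJ
    simp at hRJ
  · obtain ⟨a1, a2, a3, a4⟩ := hl x y hx hy hxy
    refine ⟨a1, ?_⟩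
    rw [inner_turn, Complex.sub_im, Complex.sub_re, ← hR, ← hJ]
    have h5 := mul_le_mul_of_nonneg_right a2 h0
    rcases lt_trichotomy c θ₀ with h | h | h
    · have h6 := mul_le_mul_of_nonneg_right (a3 h) (f1 h).le
      rw [abs_of_pos (f1 h)]
      nlinarith
    · rw [(f3 h.symm).1, abs_zero, add_zero, mul_zero, sub_zero]
      linarith
    · have h6 := mul_le_mul_of_nonneg_right (a4 h) (neg_nonneg.mpr (f2 h).le)
      rw [abs_of_neg (f2 h)]
      nlinarith

/-- Isotopy of the parameter. -/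
theorem Win.reparam {f : ℝ → ℂ} {C : Set ℝ} {ω : ℝ} (hf : Win f C ω ω) {m L : ℝ} {Φ : ℝ → ℝ}
    (h : IncBi m L Φ) (hΦ : ∀ θ, Φ (θ + 2 * Real.pi) = Φ θ + 2 * Real.pi) :
    TurnFam (Icc (0 : ℝ) 1) (fun t θ => f ((1 - t) * θ + t * Φ θ)) := by
  have hΦc := h.continuous
  obtain ⟨M, hM⟩ := Function.Periodic.bounded hf.per hf.cont
  refine ⟨?_, ⟨M, fun t _ θ => hM _⟩, ?_, ?_⟩
  · have h1 := hf.cont
    exact Continuous.continuousOn (by fun_prop)
  · intro t _ θ
    show f ((1 - t) * (θ + 2 * Real.pi) + t * Φ (θ + 2 * Real.pi)) = _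
    rw [hΦ]
    have : (1 - t) * (θ + 2 * Real.pi) + t * (Φ θ + 2 * Real.pi) =
        ((1 - t) * θ + t * Φ θ) + 2 * Real.pi := by ring
    rw [this]
    exact hf.per _
  · intro t₀ ht₀ θ₀ h0
    obtain ⟨c, hc, hcθ⟩ := hf.near _ h0
    obtain ⟨hne, κ, hκ, K, δ, hδ, hl⟩ := (hf.loc c hc _ hcθ).turn h0
    refine ⟨hne, κ * min 1 m, mul_pos hκ (lt_min one_pos h.1), max K 0 * max 1 L, ?_⟩
    -- joint continuity
    have hcont : Continuous (fun p : ℝ × ℝ => (1 - p.1) * p.2 + p.1 * Φ p.2) := by fun_prop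
    have hev := hcont.tendsto (t₀, θ₀)
    rw [nhds_prod_eq] at hev
    have hev2 := hev.eventually (Metric.ball_mem_nhds _ hδ)
    obtain ⟨pa, ha, pb, hb, hab⟩ := eventually_prod_iff.mp hev2
    obtain ⟨δ', hδ', hball⟩ := Metric.eventually_nhds_iff.mp hb
    refine ⟨δ', hδ', ?_⟩
    filter_upwards [nhdsWithin_le_nhds ha, self_mem_nhdsWithin] with t ht hts x y hx hy hxy
    have b1 := hab ht (hball (y := x) (by rwa [Real.dist_eq]))
    have b2 := hab ht (hball (y := y) (by rwa [Real.dist_eq]))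
    rw [Real.dist_eq] at b1 b2
    obtain ⟨i1, i2⟩ := h.2 x y hxy
    have t0 : 0 ≤ 1 - t := by linarith [hts.2]
    have t1 : 0 ≤ t := hts.1
    have hd : 0 ≤ y - x := by linarith
    have e1 : (1 - t) * y + t * Φ y - ((1 - t) * x + t * Φ x) =
        (1 - t) * (y - x) + t * (Φ y - Φ x) := by ring
    have j1 : min 1 m * (y - x) ≤ (1 - t) * y + t * Φ y - ((1 - t) * x + t * Φ x) := by
      rw [e1]
      have k1 : min 1 m * (y - x) ≤ y - x := by
        calc _ ≤ 1 * (y - x) := mul_le_mul_of_nonneg_right (min_le_left _ _) hd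
          _ = _ := one_mul _
      have k2 : min 1 m * (y - x) ≤ Φ y - Φ x :=
        (mul_le_mul_of_nonneg_right (min_le_right _ _) hd).trans i1
      calc min 1 m * (y - x) = (1 - t) * (min 1 m * (y - x)) + t * (min 1 m * (y - x)) := by ring
        _ ≤ _ := add_le_add (mul_le_mul_of_nonneg_left k1 t0) (mul_le_mul_of_nonneg_left k2 t1)
    have j2 : (1 - t) * y + t * Φ y - ((1 - t) * x + t * Φ x) ≤ max 1 L * (y - x) := by
      rw [e1]
      have k1 : y - x ≤ max 1 L * (y - x) := by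
        calc _ = 1 * (y - x) := (one_mul _).symm
          _ ≤ _ := mul_le_mul_of_nonneg_right (le_max_left _ _) hd
      have k2 : Φ y - Φ x ≤ max 1 L * (y - x) :=
        i2.trans (mul_le_mul_of_nonneg_right (le_max_right _ _) hd)
      calc _ ≤ (1 - t) * (max 1 L * (y - x)) + t * (max 1 L * (y - x)) :=
            add_le_add (mul_le_mul_of_nonneg_left k1 t0) (mul_le_mul_of_nonneg_left k2 t1)
        _ = _ := by ring
    have hmin : 0 ≤ min 1 m * (y - x) := mul_nonneg (le_min zero_le_one h.1.le) hd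
    obtain ⟨l1, l2⟩ := hl _ _ b1 b2 (by linarith)
    constructor
    · calc _ ≤ K * ((1 - t) * y + t * Φ y - ((1 - t) * x + t * Φ x)) := l1
        _ ≤ max K 0 * ((1 - t) * y + t * Φ y - ((1 - t) * x + t * Φ x)) :=
            mul_le_mul_of_nonneg_right (le_max_left _ _) (by linarith)
        _ ≤ max K 0 * (max 1 L * (y - x)) := mul_le_mul_of_nonneg_left j2 (le_max_right _ _)
        _ = _ := by ring
    · calc κ * min 1 m * (y - x) = κ * (min 1 m * (y - x)) := by ring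
        _ ≤ κ * ((1 - t) * y + t * Φ y - ((1 - t) * x + t * Φ x)) :=
            mul_le_mul_of_nonneg_left j1 hκ.le
        _ ≤ _ := l2

theorem Win.comp {f : ℝ → ℂ} {C C' : Set ℝ} {r ω m L : ℝ} (hf : Win f C r ω) {Φ : ℝ → ℝ}
    (h : IncBi m L Φ) (hΦ : ∀ θ, Φ (θ + 2 * Real.pi) = Φ θ + 2 * Real.pi)
    (hC : ∀ c ∈ C, ∃ c' ∈ C', Φ c' = c) (hC' : ∀ c ∈ C', Φ c ∈ C) :
    Win (fun θ => f (Φ θ)) C' (r / m) (ω / L) := by
  refine ⟨hf.cont.comp h.continuous, fun θ => ?_, fun θ h0 => ?_, fun c hc θ h0 => ?_⟩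
  · show f (Φ (θ + 2 * Real.pi)) = _
    rw [hΦ]; exact hf.per _
  · obtain ⟨c, hc, h1⟩ := hf.near _ h0
    obtain ⟨c', hc', rfl⟩ := hC c hc
    refine ⟨c', hc', ?_⟩
    rw [lt_div_iff₀ h.1]
    linarith [(h.abs_le θ c').1]
  · refine LocWin.comp h (hf.loc _ (hC' c hc) _ ?_)
    rw [lt_div_iff₀ h.L_nonneg] at h0
    linarith [(h.abs_le θ c).2]

end Vale.Agent.P268.T
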