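import Vale.Agent.P268.T.H500.FSide
import Vale.Agent.P268.T.S708.Stair

/-!
# P268, topological half: `z^A` is equivalent to the ray function with slopes `0, …, A - 2`
-/

set_option linter.unusedSectionVars false

namespace Vale.Agent.P268.T

open Set Filter Topology

theorem cos_arctan_facts (k : ℕ) : 0 < Real.cos (Real.arctan k) ∧
    Real.cos (Real.arctan k) ≤ 1 ∧
    Real.sin (Real.arctan k) = k * Real.cos (Real.arctan k) := by
  have h0 := Real.cos_arctan_pos (k : ℝ)
  refine ⟨h0, Real.cos_le_one _, ?_⟩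
  have h1 := Real.tan_arctan (k : ℝ)
  rw [Real.tan_eq_sin_div_cos, div_eq_iff h0.ne'] at h1
  exact h1

/-- Rotation formulas. -/
theorem rot_facts (k : ℕ) (θ : ℝ) :
    Real.sin (θ - Real.arctan k) =
      Real.cos (Real.arctan k) * (Real.sin θ - k * Real.cos θ) ∧
    Real.cos (θ - Real.arctan k) =
      Real.cos (Real.arctan k) * (Real.cos θ + k * Real.sin θ) ∧
    Real.cos θ = Real.cos (Real.arctan k) *
      (Real.cos (θ - Real.arctan k) - k * Real.sin (θ - Real.arctan k)) := by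
  obtain ⟨h0, h1, h2⟩ := cos_arctan_facts k
  refine ⟨?_, ?_, ?_⟩
  · rw [Real.sin_sub, h2]; ring
  · rw [Real.cos_sub, h2]; ring
  · have h3 : θ = (θ - Real.arctan k) + Real.arctan k := by ring
    conv_lhs => rw [h3]
    rw [Real.cos_add, h2]
    ring

section

variable {σ : Type} [Fintype σ] [Nonempty σ]

/-- The local radius. -/
theorem exists_radiusR (A : ℕ) : ∃ R : ℝ, 0 < R ∧ R ≤ 1 ∧ ∀ x : ℝ, |x| < R → ∀ k < A,
    |Real.sin x| < Real.cos (Real.arctan k) ^ 2 * (Real.cos x - k * Real.sin x) / 4 := by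
  have h1 : ∀ᶠ x in 𝓝 (0 : ℝ), ∀ k ∈ Finset.range A,
      |Real.sin x| < Real.cos (Real.arctan k) ^ 2 * (Real.cos x - k * Real.sin x) / 4 := by
    rw [Filter.eventually_all_finset]
    intro k _
    have hc : Continuous fun x : ℝ =>
        Real.cos (Real.arctan k) ^ 2 * (Real.cos x - k * Real.sin x) / 4 - |Real.sin x| := by
      fun_prop
    have h2 := hc.continuousAt (x := (0 : ℝ))
    have h3 : (0 : ℝ) < Real.cos (Real.arctan k) ^ 2 * (Real.cos 0 - k * Real.sin 0) / 4 -
        |Real.sin 0| := by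
      have := (cos_arctan_facts k).1
      rw [Real.cos_zero, Real.sin_zero, abs_zero]
      ring_nf
      positivity
    filter_upwards [h2.eventually (lt_mem_nhds h3)] with x hx
    linarith
  obtain ⟨R, hR, hb⟩ := Metric.eventually_nhds_iff.mp h1
  refine ⟨min R 1, lt_min hR one_pos, min_le_right _ _, fun x hx k hk => ?_⟩
  exact hb (y := x) (by rw [Real.dist_eq, sub_zero]; exact hx.trans_le (min_le_left _ _)) k
    (Finset.mem_range.mpr hk)

theorem win_gS {A : ℕ} (hA : 2 ≤ A) {K : σ → Fin 1 → ℕ}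
    (hK : ∀ k : ℕ, (∃ a, K a 0 = k) ↔ k + 1 < A) {R : ℝ} (hR1 : R ≤ 1)
    (hR : ∀ x : ℝ, |x| < R → ∀ k < A,
      |Real.sin x| < Real.cos (Real.arctan k) ^ 2 * (Real.cos x - k * Real.sin x) / 4)
    {ε : ℝ} (hε : 0 < ε) (hε1 : ε ≤ 1 / 8) :
    Win (gS ε K) (range (cen (A : ℤ))) (4 * ε) R := by
  have hp := Real.pi_pos
  have hp3 := Real.pi_gt_three
  have hp4 := Real.pi_lt_d2
  have hA' : (2 : ℤ) ≤ (A : ℤ) := by exact_mod_cast hA
  have hnear : ∀ x : ℝ, x ≤ Real.pi * ε → x < 4 * ε := fun x hx => by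
    have : Real.pi * ε < 4 * ε := mul_lt_mul_of_pos_right (by linarith) hε
    linarith
  refine ⟨gS_cont ε K, gS_per ε K, fun θ h0 => ?_, ?_⟩
  · rw [gS, FS1_re] at h0
    obtain ⟨a, _, ha⟩ := Finset.exists_mem_eq_sup' (Finset.univ_nonempty (α := σ))
      fun a => ray ε (K a 0) (⟨Real.cos θ, Real.sin θ⟩ : ℂ)
    rw [ha] at h0
    obtain ⟨k, hk⟩ : ∃ k, K a 0 = k := ⟨_, rfl⟩
    have hkA : k + 1 < A := (hK k).mp ⟨a, hk⟩
    rw [hk] at h0
    rcases lt_trichotomy (Real.cos θ) 0 with hc | hc | hc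
    · rw [ray_neg hc.le] at h0
      have hc1 := Real.neg_one_le_cos θ
      have h1 : |Real.sin (θ - Real.pi)| ≤ 2 * ε := by
        rw [Real.sin_sub_pi, abs_neg]
        have : ε * -Real.cos θ ≤ ε * 1 := mul_le_mul_of_nonneg_left (by linarith) hε.le
        linarith
      obtain ⟨n, hn⟩ := near_of_sin (by rw [Real.cos_sub_pi]; linarith) h1
      refine ⟨cen A ((A - 1 : ℤ) + n * A), ⟨_, rfl⟩, ?_⟩
      rw [cen_add hA', cen_last hA', ← sub_sub]
      exact hnear _ hn
    · exfalso
      rw [ray_neg hc.le, hc] at h0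
      have h1 := Real.sin_sq_add_cos_sq θ
      rw [hc] at h1
      have h2 : |Real.sin θ| ^ 2 = 1 := by rw [sq_abs]; linarith
      have h3 : |Real.sin θ| ≤ 0 := by linarith
      have h4 := abs_nonneg (Real.sin θ)
      nlinarith
    · rw [ray_pos hc] at h0
      obtain ⟨κ0, κ1, κ2⟩ := cos_arctan_facts k
      obtain ⟨r1, r2, r3⟩ := rot_facts k θ
      set κ := Real.cos (Real.arctan k) with hκ
      have hc1 := Real.cos_le_one θ
      have h1 : |Real.sin θ - k * Real.cos θ| ≤ 2 * ε * Real.cos θ := by linarith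
      have h2 : |Real.sin (θ - Real.arctan k)| ≤ 2 * ε := by
        rw [r1, abs_mul, abs_of_pos κ0]
        have e1 : 2 * ε * Real.cos θ ≤ 2 * ε * 1 :=
          mul_le_mul_of_nonneg_left hc1 (by linarith)
        calc κ * |Real.sin θ - k * Real.cos θ| ≤ 1 * |Real.sin θ - k * Real.cos θ| :=
              mul_le_mul_of_nonneg_right κ1 (abs_nonneg _)
          _ ≤ 2 * ε := by linarith
      have h3 : 0 < Real.cos (θ - Real.arctan k) := by
        rw [r2]
        refine mul_pos κ0 ?_
        have h4 := (abs_le.mp h1).1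
        rcases Nat.eq_zero_or_pos k with hk0 | hk0
        · rw [hk0]; simpa using hc
        · have hk1 : (1 : ℝ) ≤ k := by exact_mod_cast hk0
          have h5 : 0 ≤ (k - 2 * ε) * Real.cos θ := mul_nonneg (by linarith) hc.le
          have h6 : 0 ≤ Real.sin θ := by linarith
          have h7 : 0 ≤ (k : ℝ) * Real.sin θ := mul_nonneg (by linarith) h6
          linarith
      obtain ⟨n, hn⟩ := near_of_sin h3 h2
      refine ⟨cen A ((k : ℤ) + n * A), ⟨_, rfl⟩, ?_⟩
      rw [cen_add hA', cen_of_lt (by omega) (by omega), ← sub_sub]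
      simpa using hnear _ hn
  · rintro c ⟨j, rfl⟩ θ₀ hθ
    -- the form of the centre
    have hj : j = j % (A : ℤ) + (j / (A : ℤ)) * A := by
      have := Int.emod_add_mul_ediv j A
      linarith
    have hj0 : 0 ≤ j % (A : ℤ) := Int.emod_nonneg _ (by omega)
    have hj1 : j % (A : ℤ) < A := Int.emod_lt_of_pos _ (by omega)
    obtain ⟨k, hk⟩ := Int.eq_ofNat_of_zero_le hj0
    set n := j / (A : ℤ) with hn
    rw [hk] at hj hj1
    have hcj : cen A j = cen A (k : ℤ) + 2 * Real.pi * n := by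
      rw [← cen_add hA', ← hj]
    have hkA : k < A := by exact_mod_cast hj1
    by_cases hk1 : k + 1 < A
    · -- right half plane
      have hck : cen A (k : ℤ) = Real.arctan k := by
        rw [cen_of_lt (by omega) (by omega)]; simp
      rw [hck] at hcj
      obtain ⟨κ0, κ1, κ2⟩ := cos_arctan_facts k
      obtain ⟨r1, r2, r3⟩ := rot_facts k θ₀
      have hRx := hR (θ₀ - cen A j) hθ k hkA
      set κ := Real.cos (Real.arctan k) with hκ
      set x := θ₀ - cen A j with hx
      have hx' : x = (θ₀ - Real.arctan k) - 2 * Real.pi * n := by rw [hx, hcj]; ring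
      have hs : Real.sin (θ₀ - Real.arctan k) = Real.sin x := by rw [hx', sin_sub_int]
      have hc : Real.cos (θ₀ - Real.arctan k) = Real.cos x := by rw [hx', cos_sub_int]
      rw [hs] at r1 r3
      rw [hc] at r2 r3
      have hx1 : |x| < 1 := hθ.trans_le hR1
      obtain ⟨x1, x2⟩ := abs_lt.mp hx1
      have hcx : 1 / 2 < Real.cos x := by
        have h1 := Real.one_sub_sq_div_two_le_cos (x := x)
        have h2 : x ^ 2 < 1 := by
          rw [← sq_abs]
          nlinarith [abs_nonneg x]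
        linarith
      have hcos : 0 < Real.cos θ₀ := by
        rw [r3]
        have h1 := abs_nonneg (Real.sin x)
        have h2 : 0 < κ ^ 2 * (Real.cos x - k * Real.sin x) := by linarith
        have h3 := (mul_pos_iff_of_pos_left (by positivity)).mp h2
        exact mul_pos κ0 h3
      have hlt : |Real.sin θ₀ - k * Real.cos θ₀| < Real.cos θ₀ / 4 := by
        have h1 : κ * |Real.sin θ₀ - k * Real.cos θ₀| < κ * (Real.cos θ₀ / 4) := by
          calc κ * |Real.sin θ₀ - k * Real.cos θ₀| = |Real.sin x| := by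
                rw [r1, abs_mul, abs_of_pos κ0]
            _ < κ ^ 2 * (Real.cos x - k * Real.sin x) / 4 := hRx
            _ = κ * (Real.cos θ₀ / 4) := by rw [r3]; ring
        exact lt_of_mul_lt_mul_left h1 κ0.le
      have hu' : 1 / 2 < Real.cos θ₀ + k * Real.sin θ₀ := by
        by_contra hcon
        push Not at hcon
        have h1 : Real.cos x ≤ κ * (1 / 2) := by
          rw [r2]; exact mul_le_mul_of_nonneg_left hcon κ0.le
        linarith
      refine LocWin.of_abs (ε := ε) (u := fun θ => Real.sin θ - k * Real.cos θ)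
        (v := fun θ => Real.cos θ) (u' := Real.cos θ₀ - k * -Real.sin θ₀) (v' := -Real.sin θ₀)
        ?_ ((Real.hasStrictDerivAt_sin θ₀).sub ((Real.hasStrictDerivAt_cos θ₀).const_mul _))
        (Real.hasStrictDerivAt_cos θ₀) ?_ hε (fun h => ?_) (fun h => ?_) (fun h => ?_)
      · have e1 : ∀ᶠ θ in 𝓝 θ₀, 0 < Real.cos θ :=
          Real.continuous_cos.continuousAt.eventually (lt_mem_nhds hcos)
        have e2 : ∀ᶠ θ in 𝓝 θ₀, |Real.sin θ - k * Real.cos θ| < Real.cos θ / 4 := by
          have hcont : Continuous fun θ : ℝ =>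
              Real.cos θ / 4 - |Real.sin θ - k * Real.cos θ| := by fun_prop
          have h3 : 0 < Real.cos θ₀ / 4 - |Real.sin θ₀ - k * Real.cos θ₀| := by linarith
          filter_upwards [hcont.continuousAt.eventually (lt_mem_nhds h3)] with θ h4
          linarith
        filter_upwards [e1, e2] with θ h1 h2
        exact gS_pos hK hk1 h1 h2
      · have h1 : |-Real.sin θ₀| ≤ 1 := by rw [abs_neg]; exact Real.abs_sin_le_one _
        have h2 : 2 * ε * |-Real.sin θ₀| ≤ 2 * ε * 1 :=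
          mul_le_mul_of_nonneg_left h1 (by linarith)
        linarith
      · show 0 < Real.sin θ₀ - k * Real.cos θ₀
        have h1 : 0 < Real.sin x :=
          Real.sin_pos_of_pos_of_lt_pi (by rw [hx]; linarith) (by linarith)
        rw [r1] at h1
        exact (mul_pos_iff_of_pos_left κ0).mp h1
      · show Real.sin θ₀ - k * Real.cos θ₀ < 0
        have h1 : Real.sin x < 0 :=
          Real.sin_neg_of_neg_of_neg_pi_lt (by rw [hx]; linarith) (by linarith)
        rw [r1] at h1
        by_contra hcon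
        push Not at hcon
        have := mul_nonneg κ0.le hcon
        linarith
      · have hx0 : x = 0 := by rw [hx, h]; ring
        have h1 : Real.sin x = 0 := by rw [hx0, Real.sin_zero]
        rw [r1] at h1
        refine ⟨?_, hcos⟩
        rcases mul_eq_zero.mp h1 with h2 | h2
        · exact absurd h2 κ0.ne'
        · exact h2
    · -- left half plane
      have hk2 : (k : ℤ) = (A : ℤ) - 1 := by omega
      rw [hk2, cen_last hA'] at hcj
      have hRx := hR (θ₀ - cen A j) hθ 0 (by omega)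
      rw [Nat.cast_zero, Real.arctan_zero, Real.cos_zero] at hRx
      set x := θ₀ - cen A j with hx
      have hx' : x = (θ₀ - Real.pi) - 2 * Real.pi * n := by rw [hx, hcj]; ring
      have hs : -Real.sin θ₀ = Real.sin x := by rw [hx', sin_sub_int, Real.sin_sub_pi]
      have hc : -Real.cos θ₀ = Real.cos x := by rw [hx', cos_sub_int, Real.cos_sub_pi]
      have hx1 : |x| < 1 := hθ.trans_le hR1
      obtain ⟨x1, x2⟩ := abs_lt.mp hx1
      have hcx : 1 / 2 < Real.cos x := by
        have h1 := Real.one_sub_sq_div_two_le_cos (x := x)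
        have h2 : x ^ 2 < 1 := by
          rw [← sq_abs]
          nlinarith [abs_nonneg x]
        linarith
      have hcos : Real.cos θ₀ < 0 := by linarith
      have hlt : |Real.sin θ₀| < -Real.cos θ₀ / 4 := by
        rw [← abs_neg, hs, hc]
        linarith
      refine LocWin.of_abs (ε := ε) (u := fun θ => -Real.sin θ)
        (v := fun θ => -Real.cos θ) (u' := -Real.cos θ₀) (v' := - -Real.sin θ₀)
        ?_ (Real.hasStrictDerivAt_sin θ₀).neg (Real.hasStrictDerivAt_cos θ₀).neg ?_ hε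
        (fun h => ?_) (fun h => ?_) (fun h => ?_)
      · have e1 : ∀ᶠ θ in 𝓝 θ₀, Real.cos θ < 0 :=
          Real.continuous_cos.continuousAt.eventually (gt_mem_nhds hcos)
        have e2 : ∀ᶠ θ in 𝓝 θ₀, |Real.sin θ| < -Real.cos θ / 4 := by
          have hcont : Continuous fun θ : ℝ => -Real.cos θ / 4 - |Real.sin θ| := by fun_prop
          have h3 : 0 < -Real.cos θ₀ / 4 - |Real.sin θ₀| := by linarith
          filter_upwards [hcont.continuousAt.eventually (lt_mem_nhds h3)] with θ h4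
          linarith
        filter_upwards [e1, e2] with θ h1 h2
        exact gS_neg h1 h2
      · rw [neg_neg]
        have h1 : |Real.sin θ₀| ≤ 1 := Real.abs_sin_le_one _
        have h2 : 2 * ε * |Real.sin θ₀| ≤ 2 * ε * 1 :=
          mul_le_mul_of_nonneg_left h1 (by linarith)
        linarith
      · show 0 < -Real.sin θ₀
        rw [hs]
        exact Real.sin_pos_of_pos_of_lt_pi (by rw [hx]; linarith) (by linarith)
      · show -Real.sin θ₀ < 0
        rw [hs]
        exact Real.sin_neg_of_neg_of_neg_pi_lt (by rw [hx]; linarith) (by linarith)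
      · have hx0 : x = 0 := by rw [hx, h]; ring
        constructor
        · show -Real.sin θ₀ = 0
          rw [hs, hx0, Real.sin_zero]
        · show 0 < -Real.cos θ₀
          linarith

/-- `z^A` and the ray function on the plane. -/
theorem hEqv_zed {A : ℕ} (hA : 2 ≤ A) : ∃ ε₁ : ℝ, 0 < ε₁ ∧ ∀ ε : ℝ, 0 < ε → ε ≤ ε₁ →
    ∀ (σ : Type) [Fintype σ] [Nonempty σ] (K : σ → Fin 1 → ℕ),
      (∀ k : ℕ, (∃ a, K a 0 = k) ↔ k + 1 < A) → HEqv (pol (expA A 0)) (FS1 ε K) := by
  have hp := Real.pi_pos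
  have hA' : (2 : ℤ) ≤ (A : ℤ) := by exact_mod_cast hA
  have hA0 : (0 : ℝ) < A := by exact_mod_cast (by omega : 0 < A)
  obtain ⟨m, L, Φ, hΦ, hΦp, hΦc⟩ := exists_param hA'
  obtain ⟨R, hR0, hR1, hR⟩ := exists_radiusR A
  have hL := hΦ.L_nonneg
  have hm := hΦ.1
  -- the common radius
  set ω : ℝ := min (R / L) (Real.pi / 2 / A) with hω
  have hω0 : 0 < ω := lt_min (by positivity) (by positivity)
  have hω1 : ω ≤ R / L := min_le_left _ _
  have hω2 : A * ω ≤ Real.pi / 2 := by
    have : ω ≤ Real.pi / 2 / A := min_le_right _ _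
    rw [le_div_iff₀ hA0] at this
    linarith
  set r : ℝ := A * ω / 2 with hr
  have hr0 : 0 < r := by positivity
  have hr1 : r ≤ Real.pi := by rw [hr]; linarith
  have hr2 : 2 * r / A ≤ ω := by
    rw [hr]
    apply le_of_eq
    field_simp
  refine ⟨min (1 / 8) (min (R / 4) (m * ω / 4)), ?_, fun ε hε hεle σ _ _ K hK => ?_⟩
  · refine lt_min (by norm_num) (lt_min (by positivity) (by positivity))
  have e1 : ε ≤ 1 / 8 := hεle.trans (min_le_left _ _)
  have e2 : 4 * ε ≤ R := by
    have := hεle.trans ((min_le_right _ _).trans (min_le_left _ _))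
    linarith
  have e3 : 4 * ε / m ≤ ω := by
    have := hεle.trans ((min_le_right _ _).trans (min_le_right _ _))
    rw [div_le_iff₀ hm]
    linarith
  have hg := win_gS hA hK hR1 hR hε e1
  -- step 1: isotopy of the parameter
  have s1 := (hg.mono e2 le_rfl).reparam hΦ hΦp
  -- step 2: straight path
  have hgc : Win (fun θ => gS ε K (Φ θ)) (cenE A) (4 * ε / m) (R / L) := by
    refine hg.comp hΦ hΦp ?_ ?_
    · rintro c ⟨j, rfl⟩
      exact ⟨_, ⟨j, rfl⟩, hΦc j⟩
    · rintro c ⟨j, rfl⟩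
      exact ⟨j, (hΦc j).symm⟩
  have hE := win_expA (A := (A : ℤ)) (by omega) hr0 hr1 (ω := ω) (by exact_mod_cast hω2)
  have s2 := (hE.mono (by exact_mod_cast hr2) le_rfl).straight (hgc.mono e3 hω1)
  -- step 3: shrinking
  have hc1 : Real.cos r < 1 := by
    have := Real.cos_lt_cos_of_nonneg_of_le_pi le_rfl hr1 hr0
    rwa [Real.cos_zero] at this
  have hc0 : 0 ≤ Real.cos r := by
    refine Real.cos_nonneg_of_neg_pi_div_two_le_of_le (by linarith) ?_
    rw [hr]; linarith
  have s3 := turnFam_expA (A := (A : ℤ)) (by omega) hc0 hc1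
  have t1 := HEqv.of_path s1.hFam
  have t2 := HEqv.of_path s2.hFam
  have t3 := HEqv.of_path s3.hFam
  have f1 : pol (fun θ => gS ε K ((1 - 0) * θ + 0 * Φ θ)) = FS1 ε K := by
    funext z
    rw [← pol_gS]
    simp
  have f2 : pol (fun θ => gS ε K ((1 - 1) * θ + 1 * Φ θ)) = pol (fun θ => gS ε K (Φ θ)) := by
    simp
  have f3 : pol (fun θ => (1 - (0 : ℝ)) • expA A (Real.cos r) θ + (0 : ℝ) • gS ε K (Φ θ)) =
      pol (expA A (Real.cos r)) := by
    funext z
    simp [pol]
  have f4 : pol (fun θ => (1 - (1 : ℝ)) • expA A (Real.cos r) θ + (1 : ℝ) • gS ε K (Φ θ)) =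
      pol (fun θ => gS ε K (Φ θ)) := by
    funext z
    simp [pol]
  have f5 : pol (fun θ => expA A (0 * Real.cos r) θ) = pol (expA A 0) := by
    simp
  have f6 : pol (fun θ => expA A (1 * Real.cos r) θ) = pol (expA A (Real.cos r)) := by
    simp
  rw [f1, f2] at t1
  rw [f3, f4] at t2
  rw [f5, f6] at t3
  exact t3.trans (t2.trans t1.symm)

end

/-! ### The chain polynomial of length one -/

open Vale.Agent.P268.Z

/-- The coordinate of the one dimensional space. -/
noncomputable def linE : EuclideanSpace ℂ (Fin 1) ≃L[ℝ] ℂ :=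
  (PiLp.continuousLinearEquiv 2 ℝ (fun _ : Fin 1 => ℂ)).trans
    (ContinuousLinearEquiv.funUnique (Fin 1) ℝ ℂ)

/-- The space of the chain polynomial `z^A`. -/
noncomputable def linCE (A : ℕ) : CE [A] ≃L[ℝ] ℂ := linE

theorem linCE_apply (A : ℕ) (x : CE [A]) : linCE A x = x (0 : Fin 1) := rfl

theorem norm_linCE (A : ℕ) (x : CE [A]) : ‖linCE A x‖ = ‖x‖ := by
  rw [linCE_apply]
  have h1 := EuclideanSpace.norm_eq (𝕜 := ℂ) (n := Fin 1) x
  rw [Fin.sum_univ_one, Real.sqrt_sq (norm_nonneg _)] at h1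
  exact h1.symm

theorem P_one {A : ℕ} (hA : 2 ≤ A) (x : CE [A]) : P [A] x = pol (expA A 0) (linCE A x) := by
  have hA0 : (A : ℝ) ≠ 0 := by exact_mod_cast (by omega : A ≠ 0)
  have e1 : P [A] x = (Wc (chainWt [A]) x (0 : Fin 1)) ^ A := by
    rw [P, chainFun]
    have : ∀ g : Fin [A].length → ℂ, ∑ j, g j = g (0 : Fin 1) := fun g => Fin.sum_univ_one g
    rw [this]
    simp
  have hw : chainWt [A] (0 : Fin 1) = 1 / A := by
    show headWt ([A].drop 0) = _
    simp [headWt]
  rw [e1, Wc_apply, hw, ← linCE_apply A x, ← norm_linCE]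
  set z := linCE A x with hz
  rcases eq_or_ne z 0 with h0 | h0
  · rw [h0, smul_zero, zero_pow (by omega)]
    simp [pol]
  · have hn : 0 < ‖z‖ := norm_pos_iff.mpr h0
    have e2 : z ^ A = ((‖z‖ ^ A : ℝ) : ℂ) * Complex.exp ((A * Complex.arg z : ℝ) * Complex.I) := by
      conv_lhs => rw [← Complex.norm_mul_exp_arg_mul_I z]
      rw [mul_pow, ← Complex.exp_nat_mul]
      push_cast
      ring_nf
    have e3 : (‖z‖ ^ (1 / (A : ℝ) - 1)) ^ A * ‖z‖ ^ A = ‖z‖ := by
      rw [← mul_pow]
      have : ‖z‖ ^ (1 / (A : ℝ) - 1) * ‖z‖ = ‖z‖ ^ (1 / (A : ℝ)) := by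
        conv_lhs => rw [← Real.rpow_one ‖z‖, ← Real.rpow_mul hn.le, one_mul,
          ← Real.rpow_add hn]
        congr 1
        ring
      rw [this, ← Real.rpow_mul_natCast hn.le]
      field_simp
      simp
    have e4 : expA A 0 (Complex.arg z) =
        Complex.exp ((A * Complex.arg z : ℝ) * Complex.I) := by
      rw [Complex.exp_mul_I, ← Complex.ofReal_cos, ← Complex.ofReal_sin, expA]
      rw [Complex.mk_eq_add_mul_I, sub_zero]
      push_cast
      rfl
    rw [smul_pow, e2, pol, e4, Complex.real_smul, Complex.real_smul, ← mul_assoc,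
      ← Complex.ofReal_mul, e3]

theorem hFun_FS1_of {σ : Type} [Fintype σ] [Nonempty σ] {ε : ℝ} {K : σ → Fin 1 → ℕ}
    (h : HFun (FS1 ε K)) : HEqv (FS ε K) (FS1 ε K) := by
  have h1 := HEqv.of_linear (ContinuousLinearEquiv.funUnique (Fin 1) ℝ ℂ) h
  have h2 : (fun x => FS1 ε K (ContinuousLinearEquiv.funUnique (Fin 1) ℝ ℂ x)) = FS ε K := by
    funext x
    show FS ε K (fun _ => x default) = FS ε K x
    congr 1
    funext j
    rw [Subsingleton.elim j default]
  rwa [h2] at h1

/-- **`z^A` is equivalent to the ray function with slopes `0, …, A - 2`**, for all small `ε`. -/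
theorem hEqv_P_one {A : ℕ} (hA : 2 ≤ A) : ∃ ε₁ : ℝ, 0 < ε₁ ∧ ∀ ε : ℝ, 0 < ε → ε ≤ ε₁ →
    ∀ (σ : Type) [Fintype σ] [Nonempty σ] (K : σ → Fin 1 → ℕ),
      (∀ k : ℕ, (∃ a, K a 0 = k) ↔ k + 1 < A) → HEqv (P [A]) (FS ε K) := by
  obtain ⟨ε₁, hε₁, h⟩ := hEqv_zed hA
  refine ⟨ε₁, hε₁, fun ε hε hεle σ _ _ K hK => ?_⟩
  have h1 := h ε hε hεle σ K hK
  have h2 := HEqv.of_linear (linCE A) h1.left
  have h3 : (fun x => pol (expA A 0) (linCE A x)) = P [A] := by
    funext x
    exact (P_one hA x).symm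
  rw [h3] at h2
  exact h2.trans (h1.trans (hFun_FS1_of h1.right).symm)

/-- The staircase of `[A]`. -/
theorem stair_one {A : ℕ} (k : ℕ) : (∃ p : Stair [A], p.1 (0 : Fin 1) = k) ↔ k + 1 < A := by
  constructor
  · rintro ⟨p, rfl⟩
    rcases p.2 (0 : Fin 1) with h | ⟨_, h, _⟩
    · exact h
    · exact absurd h (by simp)
  · intro h
    exact ⟨⟨fun _ => k, fun j => Or.inl (by
      rw [Subsingleton.elim (α := Fin 1) j (0 : Fin 1)]
      exact h)⟩, rfl⟩

theorem hEqv_P_one_stair {A : ℕ} (hA : 2 ≤ A) : ∃ ε₁ : ℝ, 0 < ε₁ ∧ ∀ ε : ℝ, 0 < ε → ε ≤ ε₁ →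
    ∀ [Nonempty (Stair [A])], HEqv (P [A]) (FS ε fun p : Stair [A] => p.1) := by
  obtain ⟨ε₁, hε₁, h⟩ := hEqv_P_one hA
  exact ⟨ε₁, hε₁, fun ε hε hεle _ => h ε hε hεle (Stair [A]) (fun p => p.1) stair_one⟩

end Vale.Agent.P268.T
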